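import Vale.Agent.P098.Regularity.Defs

/-!
P098, block B3: weak gradients of Lipschitz functions, uniqueness of weak gradients, and the
energy as a real number.
-/

open MeasureTheory Filter
open scoped Topology ContDiff NNReal

namespace Vale.Agent.P098

variable {d : ℕ} {C D : ℝ≥0} {f f' g : Euc d → ℝ} {B : Set (Euc d)}

lemma measurable_pd (f : Euc d → ℝ) (i : Fin d) : Measurable (pd i f) :=
  measurable_fderiv_apply_const ℝ f _

lemma pd_eq_zero_of_eq_zero (hn : ∀ y, 0 ≤ f y) {x : Euc d} (hx : f x = 0) (i : Fin d) :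
    pd i f x = 0 := by
  have h : IsLocalMin f x := Eventually.of_forall fun y => hx.trans_le (hn y)
  simp [pd, h.fderiv_eq_zero]

lemma abs_pd_le (hf : LipschitzWith C f) (i : Fin d) (x : Euc d) : |pd i f x| ≤ C := by
  have h := (fderiv ℝ f x).le_opNorm (EuclideanSpace.single i 1)
  simp at h
  exact h.trans (norm_fderiv_le_of_lipschitz ℝ hf)

lemma sum_pd_sq_eq (f : Euc d → ℝ) (x : Euc d) : ∑ i, pd i f x ^ 2 = ‖fderiv ℝ f x‖ ^ 2 := by
  rw [norm_fderiv_sq, gradSq]
  exact Finset.sum_congr rfl fun i _ => sq _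

lemma sum_pd_sq_le (hf : LipschitzWith C f) (x : Euc d) : ∑ i, pd i f x ^ 2 ≤ (C : ℝ) ^ 2 := by
  rw [sum_pd_sq_eq]
  exact pow_le_pow_left₀ (norm_nonneg _) (norm_fderiv_le_of_lipschitz ℝ hf) 2

lemma lipschitzWith_of_test (hg : ContDiff ℝ ∞ g) (hs : HasCompactSupport g) :
    ∃ D, LipschitzWith D g :=
  hg.lipschitzWith_of_hasCompactSupport hs (by simp)

lemma lineDeriv_single_ae (hf : LipschitzWith C f) (i : Fin d) :
    (fun x => lineDeriv ℝ f x (EuclideanSpace.single i 1)) =ᵐ[volume] pd i f := by
  filter_upwards [hf.ae_differentiableAt] with x hx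
  exact hx.lineDeriv_eq_fderiv

/-- Integration by parts for Lipschitz functions. -/
lemma integral_mul_pd (hf : LipschitzWith C f) (hg : LipschitzWith D g)
    (hgs : HasCompactSupport g) (i : Fin d) :
    ∫ x, f x * pd i g x = -∫ x, pd i f x * g x := by
  have h := LipschitzWith.integral_lineDeriv_mul_eq (μ := volume) hf hg hgs
    (EuclideanSpace.single i (1 : ℝ))
  have e1 : (fun x => lineDeriv ℝ f x (EuclideanSpace.single i 1) * g x)
      =ᵐ[volume] fun x => pd i f x * g x := by
    filter_upwards [lineDeriv_single_ae hf i] with x hx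
    rw [hx]
  have e2 : (fun x => lineDeriv ℝ g x (-EuclideanSpace.single i 1) * f x)
      =ᵐ[volume] fun x => -(f x * pd i g x) := by
    filter_upwards [lineDeriv_single_ae hg i] with x hx
    rw [lineDeriv_neg, hx]
    ring
  rw [integral_congr_ae e1, integral_congr_ae e2, integral_neg] at h
  linarith

lemma isFiniteMeasure_restrict (hb : Bornology.IsBounded B) :
    IsFiniteMeasure (volume.restrict B) :=
  ⟨by rw [Measure.restrict_apply_univ]; exact hb.measure_lt_top⟩

lemma memLp_pd (hf : LipschitzWith C f) (hb : Bornology.IsBounded B) (i : Fin d) :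
    MemLp (pd i f) 2 (volume.restrict B) :=
  have := isFiniteMeasure_restrict hb
  MemLp.of_bound (measurable_pd f i).aestronglyMeasurable C
    (Eventually.of_forall fun x => abs_pd_le hf i x)

/-- A Lipschitz function has its gradient as weak gradient. -/
theorem hasWeakGrad_pd (hf : LipschitzWith C f) (hb : Bornology.IsBounded B) :
    HasWeakGrad B f fun i => pd i f := by
  refine ⟨memLp_pd hf hb, fun i φ hφ hs hsub => ?_⟩
  obtain ⟨D, hD⟩ := lipschitzWith_of_test hφ hs
  rw [setIntegral_eq_integral_of_forall_compl_eq_zero fun x hx => ?_,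
    setIntegral_eq_integral_of_forall_compl_eq_zero fun x hx => ?_, integral_mul_pd hf hD hs]
  · rw [image_eq_zero_of_notMem_tsupport fun h => hx (hsub h), mul_zero]
  · rw [pd_eq_zero_of_eventually (notMem_tsupport_iff_eventuallyEq.1 fun h => hx (hsub h)) i,
      mul_zero]

lemma integrableOn_mul_of_memLp {B : Set (Euc d)} (hb : Bornology.IsBounded B)
    (hf : MemLp f 2 (volume.restrict B)) (hg : Continuous g) (hgs : HasCompactSupport g) :
    IntegrableOn (fun x => f x * g x) B := by
  have := isFiniteMeasure_restrict hb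
  obtain ⟨M, hM⟩ := hg.bounded_above_of_compact_support hgs
  exact (hf.integrable one_le_two).mul_bdd (c := M) hg.aestronglyMeasurable
    (Eventually.of_forall hM)

lemma HasWeakGrad.add {G G' : Fin d → Euc d → ℝ} (h : HasWeakGrad B f G)
    (h' : HasWeakGrad B f' G') (hb : Bornology.IsBounded B)
    (hf : MemLp f 2 (volume.restrict B)) (hf' : MemLp f' 2 (volume.restrict B)) :
    HasWeakGrad B (fun x => f x + f' x) fun i x => G i x + G' i x := by
  refine ⟨fun i => (h.1 i).add (h'.1 i), fun i φ hφ hs hsub => ?_⟩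
  have hp : Continuous (pd i φ) := continuous_pd (hφ.of_le (by simp)) i
  have hps : HasCompactSupport (pd i φ) := hasCompactSupport_pd hs i
  simp only [add_mul]
  rw [integral_add (integrableOn_mul_of_memLp hb hf hp hps)
      (integrableOn_mul_of_memLp hb hf' hp hps),
    integral_add (integrableOn_mul_of_memLp hb (h.1 i) hφ.continuous hs)
      (integrableOn_mul_of_memLp hb (h'.1 i) hφ.continuous hs),
    h.2 i φ hφ hs hsub, h'.2 i φ hφ hs hsub]
  ring

lemma HasWeakGrad.mono {B' : Set (Euc d)} {G : Fin d → Euc d → ℝ} (h : HasWeakGrad B f G)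
    (hBB : B' ⊆ B) : HasWeakGrad B' f G := by
  refine ⟨fun i => (h.1 i).mono_measure (Measure.restrict_mono hBB le_rfl),
    fun i φ hφ hs hsub => ?_⟩
  have hz : ∀ x, x ∉ B' → φ x = 0 ∧ pd i φ x = 0 := fun x hx => by
    have h1 := notMem_tsupport_iff_eventuallyEq.1 fun h => hx (hsub h)
    exact ⟨h1.eq_of_nhds, pd_eq_zero_of_eventually h1 i⟩
  have e : ∀ (F F' : Euc d → ℝ), (∀ x, x ∉ B' → F' x = 0) →
      ∫ x in B', F x * F' x = ∫ x in B, F x * F' x := fun F F' hF => by
    rw [setIntegral_eq_integral_of_forall_compl_eq_zero fun x hx => by simp [hF x hx],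
      setIntegral_eq_integral_of_forall_compl_eq_zero fun x hx => by
        simp [hF x fun h => hx (hBB h)]]
  rw [e f _ fun x hx => (hz x hx).2, e (G i) φ fun x hx => (hz x hx).1]
  exact h.2 i φ hφ hs (hsub.trans hBB)

/-- Weak gradients are unique on open sets. -/
theorem HasWeakGrad.unique {G G' : Fin d → Euc d → ℝ} (hB : IsOpen B)
    (h : HasWeakGrad B f G) (h' : HasWeakGrad B f' G') (hff : f =ᵐ[volume.restrict B] f')
    (i : Fin d) : G i =ᵐ[volume.restrict B] G' i := by
  have hloc : ∀ {F : Euc d → ℝ}, MemLp F 2 (volume.restrict B) → LocallyIntegrableOn F B := by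
    intro F hF
    refine (locallyIntegrableOn_iff hB.isLocallyClosed).2 fun K hK hKc => ?_
    have := isFiniteMeasure_restrict hKc.isBounded
    exact (hF.mono_measure (Measure.restrict_mono hK le_rfl)).integrable one_le_two
  have := hB.ae_eq_zero_of_integral_contDiff_smul_eq_zero (μ := volume)
    ((hloc (h.1 i)).sub (hloc (h'.1 i))) fun φ hφ hs hsub => ?_
  · refine (ae_restrict_iff' hB.measurableSet).2 ?_
    filter_upwards [this] with x hx hxB
    exact sub_eq_zero.1 (hx hxB)
  · obtain ⟨M, hM⟩ := hφ.continuous.bounded_above_of_compact_support hs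
    have hi : ∀ {F : Euc d → ℝ}, MemLp F 2 (volume.restrict B) →
        Integrable fun x => F x * φ x := by
      intro F hF
      have h1 := ((hloc hF).integrableOn_compact_subset hsub hs.isCompact).mul_bdd (c := M)
        hφ.continuous.aestronglyMeasurable (Eventually.of_forall hM)
      exact IntegrableOn.integrable_of_forall_notMem_eq_zero h1 fun x hx => by
        simp [image_eq_zero_of_notMem_tsupport hx]
    have e : ∀ {F : Euc d → ℝ}, ∫ x in B, F x * φ x = ∫ x, F x * φ x := fun {F} =>
      setIntegral_eq_integral_of_forall_compl_eq_zero fun x hx => by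
        simp [image_eq_zero_of_notMem_tsupport fun h => hx (hsub h)]
    have h1 : ∫ x in B, G i x * φ x = ∫ x in B, G' i x * φ x := by
      have a := h.2 i φ hφ hs hsub
      rw [integral_congr_ae (g := fun x => f' x * pd i φ x)
          (by filter_upwards [hff] with x hx; rw [hx]),
        h'.2 i φ hφ hs hsub] at a
      linarith
    calc ∫ x, φ x • (G i x - G' i x) = ∫ x, (G i x * φ x - G' i x * φ x) := by
          refine integral_congr_ae (Eventually.of_forall fun x => ?_)
          simp only [smul_eq_mul]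
          ring
      _ = 0 := by rw [integral_sub (hi (h.1 i)) (hi (h'.1 i)), ← e, ← e, h1, sub_self]

/-- The energy as a real number. -/
noncomputable def energyR (f : Euc d → ℝ) (G : Fin d → Euc d → ℝ) (B : Set (Euc d)) : ℝ :=
  (∫ x in B, ∑ i, G i x ^ 2) + (volume.restrict B).real (posSet f)

lemma integrableOn_sum_sq {G : Fin d → Euc d → ℝ}
    (hG : ∀ i, MemLp (G i) 2 (volume.restrict B)) : IntegrableOn (fun x => ∑ i, G i x ^ 2) B :=
  integrable_finsetSum _ fun i _ => (hG i).integrable_sq

lemma energyR_nonneg (f : Euc d → ℝ) (G : Fin d → Euc d → ℝ) (B : Set (Euc d)) :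
    0 ≤ energyR f G B :=
  add_nonneg (integral_nonneg fun _ => Finset.sum_nonneg fun _ _ => sq_nonneg _) measureReal_nonneg

lemma sobolevEnergy_eq_ofReal {G : Fin d → Euc d → ℝ} (hb : Bornology.IsBounded B)
    (hG : ∀ i, MemLp (G i) 2 (volume.restrict B)) :
    sobolevEnergy f G B = ENNReal.ofReal (energyR f G B) := by
  have := isFiniteMeasure_restrict hb
  rw [sobolevEnergy, energyR, ENNReal.ofReal_add
      (integral_nonneg fun _ => Finset.sum_nonneg fun _ _ => sq_nonneg _) measureReal_nonneg,
    ofReal_integral_eq_lintegral_ofReal (integrableOn_sum_sq hG)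
      (Eventually.of_forall fun _ => Finset.sum_nonneg fun _ _ => sq_nonneg _),
    ofReal_measureReal]

lemma memLp_lipschitz (hf : LipschitzWith C f) (c : Euc d) (R : ℝ) :
    MemLp f 2 (volume.restrict (Metric.ball c R)) :=
  memLp_ball hf.continuous c R

/-- Minimality of a Lipschitz global minimizer, with real energies. -/
theorem IsGlobalMinimizer.energyR_le {u v : Euc d → ℝ} {H : Fin d → Euc d → ℝ}
    (hu : IsGlobalMinimizer u) (hL : LipschitzWith C u) {c : Euc d} {R : ℝ}
    (hv : MemLp v 2 (volume.restrict (Metric.ball c R)))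
    (hH : HasWeakGrad (Metric.ball c R) v H)
    (hn : ∀ᵐ x ∂volume.restrict (Metric.ball c R), 0 ≤ v x)
    (hK : ∃ K, IsCompact K ∧ K ⊆ Metric.ball c R ∧
      ∀ᵐ x ∂volume.restrict (Metric.ball c R), x ∉ K → v x = u x) :
    energyR u (fun i => pd i u) (Metric.ball c R) ≤ energyR v H (Metric.ball c R) := by
  have h := (hu.2 c R).2 v _ H (hasWeakGrad_pd hL Metric.isBounded_ball) hv hH hn hK
  rwa [sobolevEnergy_eq_ofReal Metric.isBounded_ball (memLp_pd hL Metric.isBounded_ball),
    sobolevEnergy_eq_ofReal Metric.isBounded_ball hH.1,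
    ENNReal.ofReal_le_ofReal_iff (energyR_nonneg _ _ _)] at h

end Vale.Agent.P098
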