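import Vale.Agent.P098.Regularity.B3.Lipschitz

/-!
P098, block B3a: locally uniform limits of regular minimizers are global minimizers.
-/

open MeasureTheory Filter
open scoped Topology ContDiff NNReal

namespace Vale.Agent.P098

variable {d : ℕ} {L : ℝ≥0} {v : ℕ → Euc d → ℝ} {w : Euc d → ℝ}

lemma lipschitzWith_of_tendsto (hv : ∀ k, LipschitzWith L (v k))
    (hlim : ∀ x, Tendsto (fun k => v k x) atTop (𝓝 (w x))) : LipschitzWith L w :=
  LipschitzWith.of_dist_le_mul fun x y => le_of_tendsto ((hlim x).dist (hlim y))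
    (Eventually.of_forall fun k => (hv k).dist_le_mul x y)

/-- The product of a Lipschitz function and a compactly supported one is Lipschitz. -/
lemma exists_lipschitzWith_mul {C D : ℝ≥0} {η g : Euc d → ℝ} (hη : LipschitzWith D η)
    (hs : HasCompactSupport η) (hg : LipschitzWith C g) :
    ∃ E, LipschitzWith E fun x => η x * g x := by
  obtain ⟨M, hM⟩ := hη.continuous.bounded_above_of_compact_support hs
  obtain ⟨G, hG⟩ := hs.isCompact.exists_bound_of_continuousOn hg.continuous.continuousOn
  set A : ℝ := max G 0 * D + max M 0 * C with hA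
  have key : ∀ x y, x ∈ tsupport η → |η x * g x - η y * g y| ≤ A * dist x y := fun x y hx => by
    have h1 : |η x - η y| ≤ D * dist x y := by rw [← Real.dist_eq]; exact hη.dist_le_mul x y
    have h2 : |g x - g y| ≤ C * dist x y := by rw [← Real.dist_eq]; exact hg.dist_le_mul x y
    have h3 : |g x| ≤ max G 0 := le_max_of_le_left (hG x hx)
    have h4 : |η y| ≤ max M 0 := le_max_of_le_left (hM y)
    calc |η x * g x - η y * g y| = |g x * (η x - η y) + η y * (g x - g y)| := by
          congr 1; ring
      _ ≤ |g x| * |η x - η y| + |η y| * |g x - g y| := by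
          rw [← abs_mul, ← abs_mul]; exact abs_add_le _ _
      _ ≤ max G 0 * (D * dist x y) + max M 0 * (C * dist x y) :=
          add_le_add (mul_le_mul h3 h1 (abs_nonneg _) (le_max_right _ _))
            (mul_le_mul h4 h2 (abs_nonneg _) (le_max_right _ _))
      _ = A * dist x y := by rw [hA]; ring
  have hA0 : 0 ≤ A := by positivity
  refine ⟨A.toNNReal, LipschitzWith.of_dist_le_mul fun x y => ?_⟩
  rw [Real.coe_toNNReal A hA0, Real.dist_eq]
  by_cases hx : x ∈ tsupport η
  · exact key x y hx
  by_cases hy : y ∈ tsupport η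
  · rw [abs_sub_comm, dist_comm]
    exact key y x hy
  · simp [image_eq_zero_of_notMem_tsupport hx, image_eq_zero_of_notMem_tsupport hy]
    positivity

/-- Gradients of a pointwise convergent equi-Lipschitz sequence converge against test functions. -/
lemma tendsto_integral_pd_mul_test (hv : ∀ k, LipschitzWith L (v k))
    (hlim : ∀ x, Tendsto (fun k => v k x) atTop (𝓝 (w x))) {φ : Euc d → ℝ} {D : ℝ≥0}
    (hφ : LipschitzWith D φ) (hs : HasCompactSupport φ) (i : Fin d) :
    Tendsto (fun k => ∫ x, pd i (v k) x * φ x) atTop (𝓝 (∫ x, pd i w x * φ x)) := by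
  have e : ∀ {f : Euc d → ℝ}, LipschitzWith L f →
      ∫ x, pd i f x * φ x = -∫ x, f x * pd i φ x := fun hf => by
    rw [integral_mul_pd hf hφ hs i, neg_neg]
  simp only [e (hv _), e (lipschitzWith_of_tendsto hv hlim)]
  refine Tendsto.neg ?_
  obtain ⟨B0, hB0⟩ := (Metric.isBounded_range_of_tendsto _ (hlim 0)).exists_norm_le
  obtain ⟨P, hP⟩ := hs.isCompact.exists_bound_of_continuousOn (f := fun x : Euc d => ‖x‖)
    continuous_norm.continuousOn
  refine tendsto_integral_of_dominated_convergence
    ((tsupport φ).indicator fun _ => (B0 + L * P) * D) (fun k => ?_) ?_ (fun k => ?_) ?_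
  · exact (hv k).continuous.aestronglyMeasurable.mul (measurable_pd φ i).aestronglyMeasurable
  · exact (integrable_indicator_iff hs.isCompact.measurableSet).2
      (integrableOn_const hs.isCompact.measure_lt_top.ne)
  · refine Eventually.of_forall fun x => ?_
    by_cases hx : x ∈ tsupport φ
    · rw [Set.indicator_of_mem hx, norm_mul]
      refine mul_le_mul ?_ (abs_pd_le hφ i x) (norm_nonneg _) ?_
      · have h1 := (hv k).norm_sub_le x 0
        rw [sub_zero] at h1
        have h2 := hB0 _ (Set.mem_range_self k)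
        have h3 : (L : ℝ) * ‖x‖ ≤ L * P := mul_le_mul_of_nonneg_left (by simpa using hP x hx) L.2
        have := norm_le_norm_add_norm_sub' (v k x) (v k 0)
        linarith
      · have h0 : 0 ≤ P := (norm_nonneg _).trans (hP x hx)
        have := (norm_nonneg _).trans (hB0 _ (Set.mem_range_self 0))
        positivity
    · rw [Set.indicator_of_notMem hx, pd_eq_zero_of_eventually
        (notMem_tsupport_iff_eventuallyEq.1 hx) i, mul_zero, norm_zero]
  · exact Eventually.of_forall fun x => (hlim x).mul_const _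

/-- The same against integrable functions. -/
lemma tendsto_integral_pd_mul (hv : ∀ k, LipschitzWith L (v k))
    (hlim : ∀ x, Tendsto (fun k => v k x) atTop (𝓝 (w x))) {g : Euc d → ℝ} (hg : Integrable g)
    (i : Fin d) : Tendsto (fun k => ∫ x, pd i (v k) x * g x) atTop
      (𝓝 (∫ x, pd i w x * g x)) := by
  refine Metric.tendsto_atTop.2 fun ε hε => ?_
  have hδ : 0 < ε / (4 * ((L : ℝ) + 1)) := by positivity
  obtain ⟨φ, hφs, hφc, hφn⟩ :=
    MemLp.exist_eLpNorm_sub_le ENNReal.one_ne_top le_rfl (memLp_one_iff_integrable.2 hg) hδ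
  obtain ⟨D, hD⟩ := lipschitzWith_of_test hφc hφs
  have hφi : Integrable φ := hφc.continuous.integrable_of_hasCompactSupport hφs
  have hn : ∫ x, ‖g x - φ x‖ ≤ ε / (4 * ((L : ℝ) + 1)) := by
    have h := ofReal_integral_norm_eq_lintegral_enorm (hg.sub hφi)
    simp only [Pi.sub_apply] at h
    rw [← ENNReal.ofReal_le_ofReal_iff hδ.le, h]
    rw [eLpNorm_one_eq_lintegral_enorm] at hφn
    exact hφn
  have hb : ∀ {f : Euc d → ℝ}, LipschitzWith L f →
      |(∫ x, pd i f x * g x) - ∫ x, pd i f x * φ x| ≤ ε / 4 := by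
    intro f hf
    have hi : ∀ {h : Euc d → ℝ}, Integrable h → Integrable fun x => pd i f x * h x := fun hh =>
      hh.bdd_mul (c := (L : ℝ)) (measurable_pd f i).aestronglyMeasurable
        (Eventually.of_forall fun x => abs_pd_le hf i x)
    rw [← integral_sub (hi hg) (hi hφi)]
    refine (abs_integral_le_integral_abs).trans ?_
    calc ∫ x, |pd i f x * g x - pd i f x * φ x|
        ≤ ∫ x, (L : ℝ) * ‖g x - φ x‖ := by
          refine integral_mono ((hi hg).sub (hi hφi)).abs ((hg.sub hφi).norm.const_mul _) fun x => ?_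
          simp only [← mul_sub, abs_mul, Real.norm_eq_abs]
          exact mul_le_mul_of_nonneg_right (abs_pd_le hf i x) (abs_nonneg _)
      _ ≤ ((L : ℝ) + 1) * (ε / (4 * ((L : ℝ) + 1))) := by
          rw [integral_const_mul]
          exact mul_le_mul (le_add_of_nonneg_right zero_le_one) hn
            (integral_nonneg fun _ => norm_nonneg _) (by positivity)
      _ = ε / 4 := by field_simp
  obtain ⟨N, hN⟩ := Metric.tendsto_atTop.1 (tendsto_integral_pd_mul_test hv hlim hD hφs i) (ε / 4)
    (by positivity)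
  refine ⟨N, fun k hk => ?_⟩
  have h1 := abs_le.1 (hb (hv k))
  have h2 := abs_le.1 (hb (lipschitzWith_of_tendsto hv hlim))
  have h3 := abs_lt.1 (Real.dist_eq _ _ ▸ hN k hk)
  rw [Real.dist_eq, abs_lt]
  constructor <;> linarith [h1.1, h1.2, h2.1, h2.2, h3.1, h3.2]

/-- Lower semicontinuity of the Dirichlet integral. -/
lemma eventually_integral_sq_le (hv : ∀ k, LipschitzWith L (v k))
    (hlim : ∀ x, Tendsto (fun k => v k x) atTop (𝓝 (w x))) {S : Set (Euc d)}
    (hS : MeasurableSet S) (hb : Bornology.IsBounded S) (i : Fin d) {ε : ℝ} (hε : 0 < ε) :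
    ∀ᶠ k in atTop, ∫ x in S, pd i w x ^ 2 ≤ (∫ x in S, pd i (v k) x ^ 2) + ε := by
  have hw := lipschitzWith_of_tendsto hv hlim
  have := isFiniteMeasure_restrict hb
  have hg : Integrable (S.indicator (pd i w)) :=
    (integrable_indicator_iff hS).2 ((memLp_pd hw hb i).integrable one_le_two)
  have h := tendsto_integral_pd_mul hv hlim hg i
  simp only [← Set.indicator_mul_right, integral_indicator hS] at h
  filter_upwards [h.eventually (lt_mem_nhds (show (∫ x in S, pd i w x * pd i w x) - ε / 2
    < ∫ x in S, pd i w x * pd i w x by linarith))] with k hk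
  have hi : ∀ {f f' : Euc d → ℝ}, LipschitzWith L f → LipschitzWith L f' →
      IntegrableOn (fun x => pd i f x * pd i f' x) S := fun hf hf' =>
    ((memLp_pd hf hb i).integrable_mul (memLp_pd hf' hb i) :)
  have hle : ∫ x in S, (2 * (pd i (v k) x * pd i w x) - pd i w x * pd i w x)
      ≤ ∫ x in S, pd i (v k) x ^ 2 := by
    refine setIntegral_mono_on (((hi (hv k) hw).const_mul 2).sub (hi hw hw))
      (memLp_pd (hv k) hb i).integrable_sq hS fun x _ => ?_
    nlinarith [sq_nonneg (pd i (v k) x - pd i w x)]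
  rw [integral_sub ((hi (hv k) hw).const_mul 2) (hi hw hw), integral_const_mul] at hle
  simp only [sq] at hle ⊢
  linarith

/-- Lower semicontinuity of the volume of the positivity set. -/
lemma eventually_measure_posSet_le
    (hlim : ∀ x, Tendsto (fun k => v k x) atTop (𝓝 (w x))) {S : Set (Euc d)}
    (hb : Bornology.IsBounded S) {ε : ℝ} (hε : 0 < ε) :
    ∀ᶠ k in atTop, (volume.restrict S).real (posSet w)
      ≤ (volume.restrict S).real (posSet (v k)) + ε := by
  have := isFiniteMeasure_restrict hb
  set μ := volume.restrict S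
  set A : ℕ → Set (Euc d) := fun N => ⋂ k ∈ Set.Ici N, posSet (v k) with hA
  have hmono : Monotone A := fun a b hab => Set.biInter_subset_biInter_left
    (Set.Ici_subset_Ici.2 hab)
  have hsub : posSet w ⊆ ⋃ N, A N := fun x hx => by
    obtain ⟨N, hN⟩ := eventually_atTop.1 ((hlim x).eventually (lt_mem_nhds (show 0 < w x from hx)))
    exact Set.mem_iUnion.2 ⟨N, Set.mem_iInter₂.2 fun k hk => hN k hk⟩
  have h := (ENNReal.tendsto_toReal (measure_ne_top μ _)).comp
    (tendsto_measure_iUnion_atTop (μ := μ) hmono)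
  have hb' : μ.real (posSet w) ≤ μ.real (⋃ N, A N) := measureReal_mono hsub
  obtain ⟨N, hN⟩ := eventually_atTop.1 (h.eventually (lt_mem_nhds
    (show μ.real (⋃ N, A N) - ε < (μ (⋃ N, A N)).toReal by
      rw [← measureReal_def]; linarith)))
  simp only [Function.comp_apply, ← measureReal_def] at hN
  filter_upwards [eventually_ge_atTop N] with k hk
  have h1 : μ.real (A N) ≤ μ.real (posSet (v k)) := measureReal_mono (Set.biInter_subset_of_mem hk)
  have h2 := hN N le_rfl
  linarith

/-- Lower semicontinuity of the energy. -/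
lemma eventually_energyR_le (hv : ∀ k, LipschitzWith L (v k))
    (hlim : ∀ x, Tendsto (fun k => v k x) atTop (𝓝 (w x))) {S : Set (Euc d)}
    (hS : MeasurableSet S) (hb : Bornology.IsBounded S) {ε : ℝ} (hε : 0 < ε) :
    ∀ᶠ k in atTop, energyR w (fun i => pd i w) S
      ≤ energyR (v k) (fun i => pd i (v k)) S + ε := by
  set η := ε / ((d : ℝ) + 1) with hη
  have hη0 : 0 < η := by positivity
  filter_upwards [eventually_all.2 fun i => eventually_integral_sq_le hv hlim hS hb i hη0,
    eventually_measure_posSet_le hlim hb hη0] with k h1 h2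
  have hi : ∀ {f : Euc d → ℝ}, LipschitzWith L f → ∀ i,
      IntegrableOn (fun x => pd i f x ^ 2) S := fun hf i => (memLp_pd hf hb i).integrable_sq
  simp only [energyR]
  rw [integral_finsetSum _ fun i _ => hi (lipschitzWith_of_tendsto hv hlim) i,
    integral_finsetSum _ fun i _ => hi (hv k) i]
  have h3 := Finset.sum_le_sum fun i (_ : i ∈ Finset.univ) => h1 i
  rw [Finset.sum_add_distrib] at h3
  simp only [Finset.sum_const, Finset.card_univ, Fintype.card_fin, nsmul_eq_mul] at h3
  have : (d : ℝ) * η + η = ε := by rw [hη]; field_simp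
  linarith

/-- Limits of minimizers are minimizers. -/
theorem isGlobalMinimizer_of_tendsto (hm : ∀ k, IsGlobalMinimizer (v k))
    (hn : ∀ k x, 0 ≤ v k x) (hv : ∀ k, LipschitzWith L (v k))
    (hlim : TendstoLocallyUniformly v w atTop) : IsGlobalMinimizer w := by
  have hpt : ∀ x, Tendsto (fun k => v k x) atTop (𝓝 (w x)) := fun x =>
    hlim.tendstoLocallyUniformlyOn.tendsto_at (Set.mem_univ x)
  have hw := lipschitzWith_of_tendsto hv hpt
  have hw0 : ∀ x, 0 ≤ w x := fun x =>
    ge_of_tendsto (hpt x) (Eventually.of_forall fun k => hn k x)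
  refine ⟨Eventually.of_forall hw0, fun c R => ⟨⟨memLp_lipschitz hw c R, _,
    hasWeakGrad_pd hw Metric.isBounded_ball⟩, fun f g h hg hf hh hfn hK => ?_⟩⟩
  set B := Metric.ball c R with hBdef
  have hgw : ∀ i, g i =ᵐ[volume.restrict B] pd i w := fun i =>
    hg.unique Metric.isOpen_ball (hasWeakGrad_pd hw Metric.isBounded_ball) (EventuallyEq.refl _ _) i
  have hgE : sobolevEnergy w g B = sobolevEnergy w (fun i => pd i w) B := by
    unfold sobolevEnergy
    congr 1
    refine lintegral_congr_ae ?_
    filter_upwards [eventually_all.2 hgw] with x hx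
    simp only [hx]
  rw [hgE, sobolevEnergy_eq_ofReal Metric.isBounded_ball (memLp_pd hw Metric.isBounded_ball),
    sobolevEnergy_eq_ofReal Metric.isBounded_ball hh.1]
  refine ENNReal.ofReal_le_ofReal ?_
  rcases le_or_gt R 0 with hR | hR
  · simp [energyR, Metric.ball_eq_empty.2 hR]
  obtain ⟨K, hKc, hKB, hKeq⟩ := hK
  obtain ⟨ρ₀, hρ₀, hKρ⟩ := exists_pos_lt_subset_ball hR hKc.isClosed hKB
  refine le_of_forall_pos_le_add fun ε hε => ?_
  -- choose a thin shell
  set C1 : ℝ := 2 * d * (2 * (L : ℝ) + 1) ^ 2 + 1 with hC1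
  have hfin := isFiniteMeasure_restrict (d := d) (B := B) Metric.isBounded_ball
  have hsq : IntegrableOn (fun x => ∑ i, h i x ^ 2) B := integrableOn_sum_sq hh.1
  have hint : IntegrableOn (fun x => (∑ i, h i x ^ 2) + C1) B := hsq.add (integrable_const C1)
  obtain ⟨ρ, hρ0, hρR, hρ⟩ : ∃ ρ, ρ₀ ≤ ρ ∧ ρ < R ∧
      ∫ x in B \ Metric.ball c ρ, ((∑ i, h i x ^ 2) + C1) < ε / 3 := by
    set r : ℕ → ℝ := fun n => R - (R - ρ₀) / (n + 2) with hr
    have h0 : 0 < R - ρ₀ := sub_pos.2 hρ₀.2
    have hrm : Monotone r := fun a b hab => by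
      simp only [hr]
      gcongr
    have ht := tendsto_setIntegral_of_antitone (μ := volume) (s := fun n => B \ Metric.ball c (r n))
      (fun n => measurableSet_ball.diff measurableSet_ball)
      (fun a b hab => Set.sdiff_subset_sdiff_right (Metric.ball_subset_ball (hrm hab)))
      ⟨0, hint.mono_set Set.sdiff_subset⟩
    have he : (⋂ n, B \ Metric.ball c (r n)) = ∅ := by
      refine Set.eq_empty_iff_forall_notMem.2 fun x hx => ?_
      rw [Set.mem_iInter] at hx
      have hxR : dist x c < R := Metric.mem_ball.1 (hx 0).1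
      obtain ⟨n, hn⟩ := exists_nat_gt ((R - ρ₀) / (R - dist x c))
      refine (hx n).2 (Metric.mem_ball.2 ?_)
      have h1 : (R - ρ₀) / ((n : ℝ) + 2) < R - dist x c := by
        rw [div_lt_iff₀ (by positivity)]
        rw [div_lt_iff₀ (sub_pos.2 hxR)] at hn
        nlinarith
      simp only [hr]
      linarith
    rw [he, setIntegral_empty] at ht
    obtain ⟨n, hn⟩ := (ht.eventually (gt_mem_nhds (by positivity : (0 : ℝ) < ε / 3))).exists
    refine ⟨r n, ?_, ?_, hn⟩
    · have : (R - ρ₀) / ((n : ℝ) + 2) ≤ R - ρ₀ :=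
        div_le_self h0.le (by linarith [(Nat.cast_nonneg n : (0 : ℝ) ≤ n)])
      simp only [hr]
      linarith
    · simp only [hr]
      linarith [div_pos h0 (show (0 : ℝ) < (n : ℝ) + 2 by positivity)]
  have hρpos : 0 < ρ := hρ₀.1.trans_le hρ0
  set b : ContDiffBump c := ⟨ρ, (ρ + R) / 2, hρpos, by linarith⟩ with hb
  obtain ⟨Dη, hDη⟩ := lipschitzWith_of_test b.contDiff b.hasCompactSupport
  have hu := Metric.tendstoUniformlyOn_iff.1
    ((tendstoLocallyUniformlyOn_iff_tendstoUniformlyOn_of_compact (isCompact_closedBall c R)).1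
      (hlim.tendstoLocallyUniformlyOn.mono (Set.subset_univ _)))
      (1 / ((Dη : ℝ) + 1)) (by positivity)
  obtain ⟨k, hk1, hk2⟩ :=
    (hu.and (eventually_energyR_le hv hpt measurableSet_ball (S := B)
      Metric.isBounded_ball (by positivity : (0 : ℝ) < ε / 3))).exists
  -- the competitor
  set q : Euc d → ℝ := fun x => v k x - w x with hq
  have hql : LipschitzWith (L + L) q := (hv k).sub hw
  obtain ⟨E, hE⟩ := exists_lipschitzWith_mul hDη b.hasCompactSupport hql
  set F : Euc d → ℝ := fun x => q x - b x * q x with hF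
  have hFl : LipschitzWith (L + L + E) F := hql.sub hE
  have hF0 : ∀ x ∈ Metric.ball c ρ, F x = 0 := fun x hx => by
    simp [hF, b.one_of_mem_closedBall (Metric.ball_subset_closedBall hx)]
  have hFd : ∀ i, ∀ x ∈ Metric.ball c ρ, pd i F x = 0 := fun i x hx =>
    pd_eq_zero_of_eventually
      (by filter_upwards [Metric.isOpen_ball.mem_nhds hx] with y hy; exact hF0 y hy) i
  have hFb : ∀ i, ∀ᵐ x ∂volume.restrict B, |pd i F x| ≤ 2 * (L : ℝ) + 1 := fun i => by
    refine (ae_restrict_iff' measurableSet_ball).2 ?_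
    filter_upwards [(hv k).ae_differentiableAt, hw.ae_differentiableAt] with x h1 h2 hx
    have hbd : DifferentiableAt ℝ (b : Euc d → ℝ) x :=
      (b.contDiff (n := 1)).differentiable one_ne_zero x
    have hqd : DifferentiableAt ℝ q x := h1.sub h2
    have e1 : pd i F x = pd i q x - (pd i b x * q x + b x * pd i q x) := by
      rw [← pd_mul i hbd hqd, hF]
      simp [pd, fderiv_fun_sub hqd (hbd.fun_mul hqd)]
    have e2 : pd i q x = pd i (v k) x - pd i w x := by
      rw [hq]; simp [pd, fderiv_fun_sub h1 h2]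
    have e3 : |pd i q x| ≤ 2 * (L : ℝ) := by
      rw [e2]
      linarith [abs_sub (pd i (v k) x) (pd i w x), abs_pd_le (hv k) i x, abs_pd_le hw i x]
    have e4 : |pd i b x * q x| ≤ 1 := by
      have h := hk1 x (Metric.ball_subset_closedBall hx)
      rw [Real.dist_eq, abs_sub_comm] at h
      calc |pd i b x * q x| = |pd i b x| * |q x| := abs_mul _ _
        _ ≤ (Dη : ℝ) * (1 / ((Dη : ℝ) + 1)) :=
            mul_le_mul (abs_pd_le hDη i x) h.le (abs_nonneg _) Dη.2
        _ ≤ 1 := by rw [mul_one_div, div_le_one (by positivity)]; linarith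
    rw [e1, show pd i q x - (pd i b x * q x + b x * pd i q x)
      = (1 - b x) * pd i q x - pd i b x * q x by ring]
    have e5 : |(1 - b x) * pd i q x| ≤ 2 * (L : ℝ) := by
      rw [abs_mul, abs_of_nonneg (sub_nonneg.2 b.le_one)]
      exact (mul_le_of_le_one_left (abs_nonneg _) (by linarith [b.nonneg' x])).trans e3
    linarith [abs_sub ((1 - b x) * pd i q x) (pd i b x * q x)]
  have hkey := (hm k).energyR_le (hv k) (c := c) (R := R) (hf.add (memLp_lipschitz hFl c R))
    (hh.add (hasWeakGrad_pd hFl Metric.isBounded_ball) Metric.isBounded_ball hf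
      (memLp_lipschitz hFl c R)) (by
      filter_upwards [hfn, hKeq] with x h1 h2
      by_cases hx : x ∈ K
      · simpa [hF0 x (Metric.ball_subset_ball hρ0 (hKρ hx))] using h1
      · have e : f x + F x = b x * w x + (1 - b x) * v k x := by
          simp only [hF, hq, h2 hx]; ring
        show 0 ≤ f x + F x
        rw [e]
        exact add_nonneg (mul_nonneg b.nonneg (hw0 x))
          (mul_nonneg (sub_nonneg.2 b.le_one) (hn k x)))
    ⟨Metric.closedBall c ((ρ + R) / 2), isCompact_closedBall _ _,
      Metric.closedBall_subset_ball (by linarith), by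
        filter_upwards [hKeq] with x h2 hx
        have hxK : x ∉ K := fun hm' => hx (Metric.ball_subset_closedBall
          (Metric.ball_subset_ball (by linarith) (hKρ hm')))
        have hb0 : b x = 0 := b.zero_of_le_dist (le_of_lt (not_le.1 fun h => hx h))
        show f x + F x = v k x
        simp [hF, hq, hb0, h2 hxK]⟩
  -- the energy of the competitor
  have hpos : posSet (f + F) ⊆ posSet f ∪ (Metric.ball c ρ)ᶜ := fun x hx => by
    by_cases hxρ : x ∈ Metric.ball c ρ
    · left
      simpa [posSet, hF0 x hxρ] using hx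
    · exact Or.inr hxρ
  have h1 : (volume.restrict B).real (posSet (f + F))
      ≤ (volume.restrict B).real (posSet f) + ∫ _ in B \ Metric.ball c ρ, (1 : ℝ) := by
    refine (measureReal_mono hpos).trans ((measureReal_union_le _ _).trans_eq ?_)
    rw [setIntegral_const, smul_eq_mul, mul_one, measureReal_restrict_apply measurableSet_ball.compl,
      Set.inter_comm, ← Set.sdiff_eq]
  have h2 : ∫ x in B, ∑ i, (h i x + pd i F x) ^ 2 ≤ (∫ x in B, ∑ i, h i x ^ 2)
      + ∫ x in B \ Metric.ball c ρ, ((∑ i, h i x ^ 2) + (C1 - 1)) := by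
    have hind : Integrable ((B \ Metric.ball c ρ).indicator
        fun x => (∑ i, h i x ^ 2) + (C1 - 1)) (volume.restrict B) :=
      (hsq.add (integrable_const (C1 - 1))).indicator (measurableSet_ball.diff measurableSet_ball)
    calc ∫ x in B, ∑ i, (h i x + pd i F x) ^ 2
        ≤ ∫ x in B, ((∑ i, h i x ^ 2)
          + (B \ Metric.ball c ρ).indicator (fun x => (∑ i, h i x ^ 2) + (C1 - 1)) x) := by
          refine integral_mono_ae (integrableOn_sum_sq fun i =>
            (hh.1 i).add (memLp_pd hFl Metric.isBounded_ball i)) (hsq.add hind) ?_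
          filter_upwards [eventually_all.2 hFb, ae_restrict_mem measurableSet_ball] with x hx hxB
          by_cases hxρ : x ∈ Metric.ball c ρ
          · simp [hFd _ x hxρ, hxρ]
          · rw [Set.indicator_of_mem (show x ∈ B \ Metric.ball c ρ from ⟨hxB, hxρ⟩)]
            calc ∑ i, (h i x + pd i F x) ^ 2
                ≤ ∑ i, (2 * h i x ^ 2 + 2 * (2 * (L : ℝ) + 1) ^ 2) := by
                  refine Finset.sum_le_sum fun i _ => ?_
                  have := sq_le_sq' (abs_le.1 (hx i)).1 (abs_le.1 (hx i)).2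
                  nlinarith [sq_nonneg (h i x - pd i F x)]
              _ = _ := by
                  rw [Finset.sum_add_distrib, ← Finset.mul_sum, hC1]
                  simp
                  ring
      _ = _ := by
          rw [integral_add hsq hind, integral_indicator (measurableSet_ball.diff measurableSet_ball),
            Measure.restrict_restrict (measurableSet_ball.diff measurableSet_ball),
            Set.inter_eq_left.2 Set.sdiff_subset]
  have h3 : (∫ x in B \ Metric.ball c ρ, ((∑ i, h i x ^ 2) + (C1 - 1)))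
      + ∫ _ in B \ Metric.ball c ρ, (1 : ℝ)
      = ∫ x in B \ Metric.ball c ρ, ((∑ i, h i x ^ 2) + C1) := by
    have := isFiniteMeasure_restrict (d := d) (B := B \ Metric.ball c ρ)
      (Metric.isBounded_ball.subset Set.sdiff_subset)
    have hS1 : Integrable (fun x => (∑ i, h i x ^ 2) + (C1 - 1))
        (volume.restrict (B \ Metric.ball c ρ)) :=
      Integrable.add (hsq.mono_set Set.sdiff_subset) (integrable_const _)
    rw [← integral_add hS1 (integrable_const _)]
    simp [add_assoc]
  simp only [energyR] at hkey hk2 ⊢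
  change _ ≤ (∫ x in B, ∑ i, (h i x + pd i F x) ^ 2) + (volume.restrict B).real (posSet (f + F))
    at hkey
  linarith

/-- B3a. -/
theorem compactBlock (d : ℕ) : CompactBlock d := fun _ _ _ _ _ hv hlim =>
  isGlobalMinimizer_of_tendsto (fun k => (hv k).minim) (fun k => (hv k).nonneg)
    (fun k => (hv k).lip) hlim

end Vale.Agent.P098
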