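import Vale.Agent.P098.Regularity.B3.SplitCoords

/-!
P098, block B3c: a minimizer invariant in a direction is one in the orthogonal hyperplane.
-/

open MeasureTheory Filter
open scoped Topology ContDiff NNReal RealInnerProductSpace

namespace Vale.Agent.P098

variable {d : ℕ}

lemma exists_deriv_smoothTransition_bound :
    ∃ M, 0 ≤ M ∧ ∀ t : ℝ, |deriv Real.smoothTransition t| ≤ M := by
  have hs : HasCompactSupport (deriv Real.smoothTransition) :=
    HasCompactSupport.intro (isCompact_Icc (a := (0 : ℝ)) (b := 1)) fun t ht => by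
      rcases not_and_or.1 ht with h | h
      · exact IsLocalMin.deriv_eq_zero (Eventually.of_forall fun y => by
          rw [Real.smoothTransition.zero_of_nonpos (not_le.1 h).le]
          exact Real.smoothTransition.nonneg y)
      · exact IsLocalMax.deriv_eq_zero (Eventually.of_forall fun y => by
          rw [Real.smoothTransition.one_of_one_le (not_le.1 h).le]
          exact Real.smoothTransition.le_one y)
  obtain ⟨M, hM⟩ := ((Real.smoothTransition.contDiff (n := 1)).continuous_deriv
    le_rfl).bounded_above_of_compact_support hs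
  exact ⟨M, (norm_nonneg _).trans (hM 0), hM⟩

/-- The cut-off in the split-off variable. -/
noncomputable def slabCut (T t : ℝ) : ℝ :=
  Real.smoothTransition (T + 1 - t) * Real.smoothTransition (T + 1 + t)

lemma contDiff_slabCut (T : ℝ) : ContDiff ℝ ∞ (slabCut T) :=
  (Real.smoothTransition.contDiff.comp (contDiff_const.sub contDiff_id)).mul
    (Real.smoothTransition.contDiff.comp (contDiff_const.add contDiff_id))

lemma slabCut_nonneg (T t : ℝ) : 0 ≤ slabCut T t :=
  mul_nonneg (Real.smoothTransition.nonneg _) (Real.smoothTransition.nonneg _)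

lemma slabCut_le_one (T t : ℝ) : slabCut T t ≤ 1 :=
  mul_le_one₀ (Real.smoothTransition.le_one _) (Real.smoothTransition.nonneg _)
    (Real.smoothTransition.le_one _)

lemma slabCut_eq_one {T t : ℝ} (h : |t| ≤ T) : slabCut T t = 1 := by
  rw [slabCut, Real.smoothTransition.one_of_one_le (by linarith [le_abs_self t]),
    Real.smoothTransition.one_of_one_le (by linarith [neg_abs_le t]), one_mul]

lemma slabCut_eq_zero {T t : ℝ} (h : T + 1 ≤ |t|) : slabCut T t = 0 := by
  rcases abs_cases t with ⟨e, -⟩ | ⟨e, -⟩ <;> rw [e] at h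
  · rw [slabCut, Real.smoothTransition.zero_of_nonpos (x := T + 1 - t) (by linarith), zero_mul]
  · rw [slabCut, Real.smoothTransition.zero_of_nonpos (x := T + 1 + t) (by linarith), mul_zero]

lemma deriv_slabCut_eq_zero {T t : ℝ} (h : |t| ≤ T ∨ T + 1 ≤ |t|) : deriv (slabCut T) t = 0 := by
  rcases h with h | h
  · exact IsLocalMax.deriv_eq_zero (Eventually.of_forall fun y => by
      rw [slabCut_eq_one h]; exact slabCut_le_one T y)
  · exact IsLocalMin.deriv_eq_zero (Eventually.of_forall fun y => by
      rw [slabCut_eq_zero h]; exact slabCut_nonneg T y)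

lemma hasCompactSupport_slabCut (T : ℝ) : HasCompactSupport (slabCut T) :=
  HasCompactSupport.intro (isCompact_Icc (a := -(|T| + 1)) (b := |T| + 1)) fun t ht => by
    refine slabCut_eq_zero ?_
    by_contra hc
    have h1 : |t| ≤ |T| + 1 := by linarith [le_abs_self T, not_le.1 hc]
    exact ht ⟨by linarith [neg_abs_le t], by linarith [le_abs_self t]⟩

lemma abs_deriv_slabCut_le {M : ℝ} (hM : ∀ t, |deriv Real.smoothTransition t| ≤ M) (T t : ℝ) :
    |deriv (slabCut T) t| ≤ 2 * M := by
  have hs := (Real.smoothTransition.contDiff (n := 1)).differentiable one_ne_zero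
  have h1 := (hs (T + 1 - t)).hasDerivAt.comp t ((hasDerivAt_id t).const_sub (T + 1))
  have h2 := (hs (T + 1 + t)).hasDerivAt.comp t ((hasDerivAt_id t).const_add (T + 1))
  have h3 : deriv (slabCut T) t = deriv Real.smoothTransition (T + 1 - t) * -1
        * Real.smoothTransition (T + 1 + t)
      + Real.smoothTransition (T + 1 - t) * (deriv Real.smoothTransition (T + 1 + t) * 1) :=
    (h1.mul h2).deriv
  have hM0 : 0 ≤ M := (abs_nonneg _).trans (hM 0)
  rw [h3, mul_one, mul_neg_one]
  refine (abs_add_le _ _).trans ?_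
  rw [abs_mul, abs_mul, abs_neg, abs_of_nonneg (Real.smoothTransition.nonneg _),
    abs_of_nonneg (Real.smoothTransition.nonneg _)]
  have a1 := mul_le_mul (hM (T + 1 - t)) (Real.smoothTransition.le_one (T + 1 + t))
    (Real.smoothTransition.nonneg _) hM0
  have a2 := mul_le_mul (Real.smoothTransition.le_one (T + 1 - t)) (hM (T + 1 + t))
    (abs_nonneg _) zero_le_one
  linarith

lemma integrable_indicator_posSet {f : Euc d → ℝ} {B : Set (Euc d)} (hb : Bornology.IsBounded B)
    (hf : AEStronglyMeasurable f (volume.restrict B)) :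
    IntegrableOn ((posSet f).indicator fun _ => (1 : ℝ)) B :=
  have := isFiniteMeasure_restrict hb
  (integrable_const (1 : ℝ)).indicator₀ (hf.aemeasurable.nullMeasurable measurableSet_Ioi)

lemma integrableOn_dens {f : Euc d → ℝ} {G : Fin d → Euc d → ℝ} {B : Set (Euc d)}
    (hb : Bornology.IsBounded B) (hf : AEStronglyMeasurable f (volume.restrict B))
    (hG : ∀ i, MemLp (G i) 2 (volume.restrict B)) :
    IntegrableOn (fun x => ∑ i, G i x ^ 2 + (posSet f).indicator (fun _ => (1 : ℝ)) x) B :=
  (integrableOn_sum_sq hG).add (integrable_indicator_posSet hb hf)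

lemma energyR_eq_integral {f : Euc d → ℝ} {G : Fin d → Euc d → ℝ} {B : Set (Euc d)}
    (hb : Bornology.IsBounded B) (hf : AEStronglyMeasurable f (volume.restrict B))
    (hG : ∀ i, MemLp (G i) 2 (volume.restrict B)) :
    energyR f G B = ∫ x in B, (∑ i, G i x ^ 2 + (posSet f).indicator (fun _ => (1 : ℝ)) x) := by
  rw [integral_add (integrableOn_sum_sq hG) (integrable_indicator_posSet hb hf), energyR,
    integral_indicator₀ (show NullMeasurableSet (posSet f) (volume.restrict B) from
      hf.aemeasurable.nullMeasurable measurableSet_Ioi), setIntegral_const,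
    smul_eq_mul, mul_one]

/-- To be a global minimizer, a nonnegative Lipschitz function needs only this inequality. -/
theorem isGlobalMinimizer_of_energyR {L : ℝ≥0} {w : Euc d → ℝ} (hw : LipschitzWith L w)
    (hw0 : ∀ x, 0 ≤ w x)
    (h : ∀ (c : Euc d) (R : ℝ) (v : Euc d → ℝ) (H : Fin d → Euc d → ℝ), 0 < R →
      MemLp v 2 (volume.restrict (Metric.ball c R)) → HasWeakGrad (Metric.ball c R) v H →
      (∀ᵐ x ∂volume.restrict (Metric.ball c R), 0 ≤ v x) →
      (∃ K, IsCompact K ∧ K ⊆ Metric.ball c R ∧
        ∀ᵐ x ∂volume.restrict (Metric.ball c R), x ∉ K → v x = w x) →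
      energyR w (fun i => pd i w) (Metric.ball c R) ≤ energyR v H (Metric.ball c R)) :
    IsGlobalMinimizer w := by
  refine ⟨Eventually.of_forall hw0, fun c R => ⟨⟨memLp_lipschitz hw c R, _,
    hasWeakGrad_pd hw Metric.isBounded_ball⟩, fun v g H hg hv hH hn hK => ?_⟩⟩
  have hgE : sobolevEnergy w g (Metric.ball c R)
      = sobolevEnergy w (fun i => pd i w) (Metric.ball c R) := by
    unfold sobolevEnergy
    congr 1
    refine lintegral_congr_ae ?_
    filter_upwards [eventually_all.2 fun i => hg.unique Metric.isOpen_ball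
      (hasWeakGrad_pd hw Metric.isBounded_ball) (EventuallyEq.refl _ w) i] with x hx
    simp only [hx]
  rw [hgE, sobolevEnergy_eq_ofReal Metric.isBounded_ball (memLp_pd hw Metric.isBounded_ball),
    sobolevEnergy_eq_ofReal Metric.isBounded_ball hH.1]
  refine ENNReal.ofReal_le_ofReal ?_
  rcases le_or_gt R 0 with hR | hR
  · simp [energyR, Metric.ball_eq_empty.2 hR]
  · exact h c R v H hR hv hH hn hK

/-- A function on a ball agreeing with another outside a compact set differs from it by a
globally defined function with a weak gradient. -/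
lemma exists_diff_extension {c : Euc d} {R : ℝ} (hR : 0 < R) {v z : Euc d → ℝ}
    {H G : Fin d → Euc d → ℝ} (hv : MemLp v 2 (volume.restrict (Metric.ball c R)))
    (hz : MemLp z 2 (volume.restrict (Metric.ball c R)))
    (hH : HasWeakGrad (Metric.ball c R) v H) (hG : HasWeakGrad (Metric.ball c R) z G)
    {K : Set (Euc d)} (hKc : IsCompact K) (hKB : K ⊆ Metric.ball c R)
    (hKeq : ∀ᵐ x ∂volume.restrict (Metric.ball c R), x ∉ K → v x = z x) :
    (∀ᵐ y, y ∉ K → (Metric.ball c R).indicator (v - z) y = 0 ∧
        ∀ i, (Metric.ball c R).indicator (H i - G i) y = 0) ∧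
      ∀ (i : Fin d) (φ : Euc d → ℝ), ContDiff ℝ ∞ φ → HasCompactSupport φ →
        ∫ y, (Metric.ball c R).indicator (v - z) y * pd i φ y
          = -∫ y, (Metric.ball c R).indicator (H i - G i) y * φ y := by
  set B := Metric.ball c R
  have hBm : MeasurableSet B := measurableSet_ball
  have hout : ∀ᵐ y, y ∉ K → B.indicator (v - z) y = 0 ∧
      ∀ i, B.indicator (H i - G i) y = 0 := by
    have ho : IsOpen (B \ K) := Metric.isOpen_ball.sdiff hKc.isClosed
    have hff : v =ᵐ[volume.restrict (B \ K)] z := by
      filter_upwards [ae_restrict_of_ae_restrict_of_subset Set.sdiff_subset hKeq,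
        ae_restrict_mem ho.measurableSet] with x hx hm
      exact hx hm.2
    have hu : ∀ i, H i =ᵐ[volume.restrict (B \ K)] G i :=
      (hH.mono Set.sdiff_subset).unique ho (hG.mono Set.sdiff_subset) hff
    have h2 := (ae_restrict_iff' ho.measurableSet).1 (eventually_all.2 hu)
    have h3 := (ae_restrict_iff' ho.measurableSet).1 hff
    filter_upwards [h2, h3] with y hy hy' hyK
    by_cases hyB : y ∈ B
    · simp [hyB, hy' ⟨hyB, hyK⟩, hy ⟨hyB, hyK⟩]
    · simp [hyB]
  refine ⟨hout, fun i φ hφ hs => ?_⟩
  obtain ⟨ρ, hρ, hKρ⟩ := exists_pos_lt_subset_ball hR hKc.isClosed hKB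
  set b : ContDiffBump c := ⟨ρ, (ρ + R) / 2, hρ.1, by linarith [hρ.2]⟩
  have hψd : ContDiff ℝ ∞ fun y => b y * φ y := b.contDiff.mul hφ
  have hψs : HasCompactSupport fun y => b y * φ y := hs.mul_left
  have hψsub : tsupport (fun y => b y * φ y) ⊆ B :=
    ((tsupport_mul_subset_left (f := (b : Euc d → ℝ)) (g := φ)).trans_eq b.tsupport_eq).trans
      (Metric.closedBall_subset_ball (by show (ρ + R) / 2 < R; linarith [hρ.2]))
  have hin : ∀ y ∈ K, (fun y => b y * φ y) =ᶠ[𝓝 y] φ := fun y hy => by
    filter_upwards [Metric.isOpen_ball.mem_nhds (hKρ hy)] with x hx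
    rw [b.one_of_mem_closedBall (Metric.ball_subset_closedBall hx), one_mul]
  have e1 : ∫ y, B.indicator (v - z) y * pd i φ y
      = ∫ y, B.indicator (v - z) y * pd i (fun y => b y * φ y) y := by
    refine integral_congr_ae ?_
    filter_upwards [hout] with y hy
    by_cases hyK : y ∈ K
    · rw [pd_congr (hin y hyK) i]
    · simp [(hy hyK).1]
  have e2 : ∫ y, B.indicator (H i - G i) y * φ y
      = ∫ y, B.indicator (H i - G i) y * (b y * φ y) := by
    refine integral_congr_ae ?_
    filter_upwards [hout] with y hy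
    by_cases hyK : y ∈ K
    · rw [show b y * φ y = φ y from (hin y hyK).eq_of_nhds]
    · simp [(hy hyK).2 i]
  have hp : Continuous (pd i fun y => b y * φ y) := continuous_pd (hψd.of_le (by simp)) i
  have hps := hasCompactSupport_pd hψs i
  have hb : Bornology.IsBounded B := Metric.isBounded_ball
  have hind : ∀ F g : Euc d → ℝ, ∫ y, B.indicator F y * g y = ∫ y in B, F y * g y := fun F g => by
    rw [← integral_indicator hBm]
    exact integral_congr_ae (Eventually.of_forall fun y => (Set.indicator_mul_left B F g).symm)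
  rw [e1, e2, hind, hind (H i - G i) fun y => b y * φ y]
  simp only [Pi.sub_apply, sub_mul]
  rw [integral_sub (integrableOn_mul_of_memLp hb hv hp hps)
      (integrableOn_mul_of_memLp hb hz hp hps),
    integral_sub (integrableOn_mul_of_memLp hb (hH.1 i) hψd.continuous hψs)
      (integrableOn_mul_of_memLp hb (hG.1 i) hψd.continuous hψs),
    hH.2 i _ hψd hψs hψsub, hG.2 i _ hψd hψs hψsub]
  ring

/-- B3c. -/
theorem splitBlock (d : ℕ) : SplitBlock d := by
  intro L cc _ u e hu he hinv ι hι
  set z : Euc d → ℝ := u ∘ ι with hzdef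
  have hz : LipschitzWith L z := by simpa using hu.lip.comp ι.lipschitz
  have hz0 : ∀ y, 0 ≤ z y := fun y => hu.nonneg _
  refine isGlobalMinimizer_of_energyR hz hz0 fun c R v H hR hv hH hn hK => ?_
  obtain ⟨K, hKc, hKB, hKeq⟩ := hK
  set B := Metric.ball c R with hB
  have hBm : MeasurableSet B := measurableSet_ball
  have hBb : Bornology.IsBounded B := Metric.isBounded_ball
  have hBfin := isFiniteMeasure_restrict hBb
  set Ψ := splitEquiv he hι with hΨ
  set π := (volume : Measure (Euc d)).prod (volume : Measure ℝ) with hπ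
  set f : Euc d → ℝ := B.indicator (v - z) with hf
  set q : Fin d → Euc d → ℝ := fun i => B.indicator (H i - pd i z) with hq
  have hzG := hasWeakGrad_pd hz hBb
  have hzm := memLp_lipschitz hz c R
  obtain ⟨hout, hweak⟩ := exists_diff_extension hR hv hzm hH hzG hKc hKB hKeq
  have hf2 : MemLp f 2 volume := (memLp_indicator_iff_restrict hBm).2 (hv.sub hzm)
  have hq2 : ∀ i, MemLp (q i) 2 volume := fun i =>
    (memLp_indicator_iff_restrict hBm).2 ((hH.1 i).sub (hzG.1 i))
  have hf1 : Integrable f :=
    (integrable_indicator_iff hBm).2 ((hv.sub hzm).integrable one_le_two)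
  have hq1 : ∀ i, Integrable (q i) := fun i =>
    (integrable_indicator_iff hBm).2 (((hH.1 i).sub (hzG.1 i)).integrable one_le_two)
  obtain ⟨Ms, hMs0, hMs⟩ := exists_deriv_smoothTransition_bound
  set D0 : Euc d → ℝ := B.indicator fun y =>
    (∑ i, H i y ^ 2 + (posSet v).indicator (fun _ => (1 : ℝ)) y)
      - (∑ i, pd i z y ^ 2 + (posSet z).indicator (fun _ => (1 : ℝ)) y) with hD0
  set M0 : Euc d → ℝ := B.indicator fun y =>
    (∑ i, (2 * ((L : ℝ) * |q i y|) + q i y ^ 2)) + (2 * Ms) ^ 2 * f y ^ 2 + 1 with hM0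
  have hdv := integrableOn_dens hBb hv.aestronglyMeasurable hH.1
  have hdz := integrableOn_dens hBb hz.continuous.aestronglyMeasurable hzG.1
  have iD0 : Integrable D0 := (integrable_indicator_iff hBm).2 (hdv.sub hdz)
  have iM0 : Integrable M0 := by
    refine (integrable_indicator_iff hBm).2 ((Integrable.add ?_ ?_).add (integrable_const 1))
    · exact integrable_finsetSum _ fun i _ =>
        Integrable.add (((((hq1 i).abs).restrict).const_mul _).const_mul 2)
          ((hq2 i).integrable_sq.restrict)
    · exact (hf2.integrable_sq.restrict).const_mul _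
  have hM0nn : ∀ y, 0 ≤ M0 y := fun y => Set.indicator_nonneg (fun y _ => by positivity) y
  have hΔ : energyR v H B - energyR z (fun i => pd i z) B = ∫ y, D0 y := by
    rw [energyR_eq_integral hBb hv.aestronglyMeasurable hH.1,
      energyR_eq_integral hBb hz.continuous.aestronglyMeasurable hzG.1, ← integral_sub hdv hdz,
      hD0, integral_indicator hBm]
  have key : ∀ T : ℝ, 0 < T → 0 ≤ 2 * T * (∫ y, D0 y) + 2 * ∫ y, M0 y := by
    intro T hT
    set χ := slabCut T with hχ
    have hχd := contDiff_slabCut T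
    have hχs := hasCompactSupport_slabCut T
    set F := splitMul he hι χ f with hF
    set G := splitGrad he hι χ f q with hG
    set K' := Ψ '' (K ×ˢ Set.Icc (-(T + 1)) (T + 1)) with hK'
    have hK'c : IsCompact K' := (hKc.prod isCompact_Icc).image Ψ.continuous
    obtain ⟨R', hR'⟩ := hK'c.isBounded.subset_ball (0 : Euc (d + 1))
    set B' := Metric.ball (0 : Euc (d + 1)) R' with hB'
    have hgood : ∀ᵐ p ∂π, (p.1 ∈ B → 0 ≤ v p.1) ∧
        (p.1 ∉ K → f p.1 = 0 ∧ ∀ i, q i p.1 = 0) ∧ DifferentiableAt ℝ z p.1 := by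
      have h1 : ∀ᵐ y, (y ∈ B → 0 ≤ v y) ∧ (y ∉ K → f y = 0 ∧ ∀ i, q i y = 0) ∧
          DifferentiableAt ℝ z y := by
        filter_upwards [(ae_restrict_iff' hBm).1 hn, hout, hz.ae_differentiableAt] with y a b c
        exact ⟨a, b, c⟩
      exact Measure.quasiMeasurePreserving_fst.ae h1
    have hzero : ∀ p : Euc d × ℝ, (p.1 ∉ K → f p.1 = 0 ∧ ∀ i, q i p.1 = 0) →
        ¬(p.1 ∈ K ∧ |p.2| ≤ T + 1) → F (Ψ p) = 0 ∧ ∀ j, G j (Ψ p) = 0 := by
      intro p hp hnot
      rcases not_and_or.1 hnot with h | h
      · simp [hF, hG, splitGrad, hΨ, splitMul_apply, (hp h).1, (hp h).2]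
      · have h' : T + 1 ≤ |p.2| := (not_le.1 h).le
        simp [hF, hG, splitGrad, hΨ, splitMul_apply, hχ, slabCut_eq_zero h',
          deriv_slabCut_eq_zero (Or.inr h')]
    have hux : ∀ p : Euc d × ℝ, u (Ψ p) = z p.1 := fun p => by
      rw [hΨ, splitEquiv_apply, hinv]
      rfl
    have hnonneg : ∀ᵐ x ∂volume.restrict B', 0 ≤ u x + F x := by
      refine ae_restrict_of_ae ((ae_split_iff he hι).1 ?_)
      filter_upwards [hgood] with p hp
      show 0 ≤ u (Ψ p) + F (Ψ p)
      rw [hux, hF, hΨ, splitMul_apply]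
      by_cases hpB : p.1 ∈ B
      · rw [hf, Set.indicator_of_mem hpB, Pi.sub_apply,
          show z p.1 + (v p.1 - z p.1) * χ p.2 = χ p.2 * v p.1 + (1 - χ p.2) * z p.1 by ring]
        exact add_nonneg (mul_nonneg (slabCut_nonneg _ _) (hp.1 hpB))
          (mul_nonneg (sub_nonneg.2 (slabCut_le_one _ _)) (hz0 _))
      · rw [hf, Set.indicator_of_notMem hpB, zero_mul, add_zero]
        exact hz0 _
    have heq : ∀ᵐ x ∂volume.restrict B', x ∉ K' → u x + F x = u x := by
      refine ae_restrict_of_ae ((ae_split_iff he hι).1 ?_)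
      filter_upwards [hgood] with p hp hx
      have hnot : ¬(p.1 ∈ K ∧ |p.2| ≤ T + 1) := fun h =>
        hx ⟨p, ⟨h.1, abs_le.1 h.2⟩, rfl⟩
      show u (Ψ p) + F (Ψ p) = u (Ψ p)
      rw [(hzero p hp.2.1 hnot).1, add_zero]
    have hFw : HasWeakGrad B' F G :=
      hasWeakGrad_splitMul he hι hχd hχs hf2 hf1 hq2 hq1 hweak B'
    have hFm : MemLp F 2 (volume.restrict B') :=
      (memLp_splitMul he hι hχd.continuous hχs hf2).restrict B'
    have hmin := hu.minim.energyR_le hu.lip (c := (0 : Euc (d + 1))) (R := R')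
      ((memLp_lipschitz hu.lip 0 R').add hFm)
      ((hasWeakGrad_pd hu.lip Metric.isBounded_ball).add hFw Metric.isBounded_ball
        (memLp_lipschitz hu.lip 0 R') hFm)
      hnonneg ⟨K', hK'c, hR', heq⟩
    change _ ≤ energyR (u + F) (fun j x => pd j u x + G j x) B' at hmin
    have hGm : ∀ j, MemLp (fun x => pd j u x + G j x) 2 (volume.restrict B') := fun j =>
      (memLp_pd hu.lip Metric.isBounded_ball j).add (hFw.1 j)
    have hdV := integrableOn_dens (f := u + F) (Metric.isBounded_ball (x := (0 : Euc (d + 1))) (r := R'))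
      (hu.lip.continuous.aestronglyMeasurable.add hFm.aestronglyMeasurable) hGm
    have hdu := integrableOn_dens (f := u) (Metric.isBounded_ball (x := (0 : Euc (d + 1))) (r := R'))
      hu.lip.continuous.aestronglyMeasurable (memLp_pd hu.lip Metric.isBounded_ball)
    rw [energyR_eq_integral Metric.isBounded_ball
        (hu.lip.continuous.aestronglyMeasurable.add hFm.aestronglyMeasurable) hGm,
      energyR_eq_integral Metric.isBounded_ball hu.lip.continuous.aestronglyMeasurable
        (memLp_pd hu.lip Metric.isBounded_ball), ← sub_nonneg, ← integral_sub hdV hdu,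
      ← integral_indicator measurableSet_ball] at hmin
    set Q : Euc (d + 1) → ℝ := B'.indicator fun x =>
      (∑ j, (pd j u x + G j x) ^ 2 + (posSet (u + F)).indicator (fun _ => (1 : ℝ)) x)
        - (∑ j, pd j u x ^ 2 + (posSet u).indicator (fun _ => (1 : ℝ)) x) with hQ
    have iQ : Integrable Q := (integrable_indicator_iff measurableSet_ball).2 (hdV.sub hdu)
    obtain ⟨κ, hκ, hint⟩ := exists_integral_split he hι
    have hQ0 : 0 ≤ ∫ p, Q (Ψ p) ∂π := by
      rw [hint]
      exact mul_nonneg hκ.le hmin
    set I1 : Set ℝ := Set.Icc (-T) T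
    set I2 : Set ℝ := Set.Icc (-(T + 1)) (T + 1) \ I1
    have hbound : ∀ᵐ p ∂π, Q (Ψ p) ≤ D0 p.1 * I1.indicator (fun _ => (1 : ℝ)) p.2
        + M0 p.1 * I2.indicator (fun _ => (1 : ℝ)) p.2 := by
      filter_upwards [hgood] with p hp
      by_cases hin : p.1 ∈ K ∧ |p.2| ≤ T + 1
      · have hpB : p.1 ∈ B := hKB hin.1
        have hx : Ψ p ∈ B' := hR' ⟨p, ⟨hin.1, abs_le.1 hin.2⟩, rfl⟩
        have hpu : ∀ j, pd j u (Ψ p) = ∑ i, ι (EuclideanSpace.single i 1) j * pd i z p.1 := by
          intro j
          have e1 : u = z ∘ ((ContinuousLinearMap.fst ℝ (Euc d) ℝ).comp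
              (Ψ.symm : Euc (d + 1) →L[ℝ] Euc d × ℝ)) := by
            funext x
            have := hux (Ψ.symm x)
            rw [Ψ.apply_symm_apply] at this
            exact this
          have hzd : DifferentiableAt ℝ z
              (((ContinuousLinearMap.fst ℝ (Euc d) ℝ).comp
                (Ψ.symm : Euc (d + 1) →L[ℝ] Euc d × ℝ)) (Ψ p)) := by simpa using hp.2.2
          have h2 := (hzd.hasFDerivAt.comp (Ψ p)
            ((ContinuousLinearMap.fst ℝ (Euc d) ℝ).comp
              (Ψ.symm : Euc (d + 1) →L[ℝ] Euc d × ℝ)).hasFDerivAt).fderiv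
          rw [← e1] at h2
          simp only [pd, h2]
          simp only [ContinuousLinearMap.coe_comp, Function.comp_apply,
            ContinuousLinearMap.coe_fst', ContinuousLinearEquiv.coe_coe, Ψ.symm_apply_apply]
          rw [clm_apply_eq_sum (fderiv ℝ z p.1)]
          exact Finset.sum_congr rfl fun i _ => by
            rw [(splitEquiv_symm_single he hι j).2 i]
        have hs1 : ∑ j, pd j u (Ψ p) ^ 2 = ∑ i, pd i z p.1 ^ 2 := by
          have := sum_sq_coords he hι (fun i => pd i z p.1) 0
          simpa [hpu] using this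
        have hs2 : ∑ j, (pd j u (Ψ p) + G j (Ψ p)) ^ 2
            = ∑ i, (pd i z p.1 + q i p.1 * χ p.2) ^ 2 + (f p.1 * deriv χ p.2) ^ 2 := by
          rw [← sum_sq_coords he hι]
          refine Finset.sum_congr rfl fun j _ => ?_
          rw [hpu]
          simp only [hG, splitGrad, hΨ, splitMul_apply, mul_add, Finset.sum_add_distrib]
          ring
        have hqv : ∀ i, q i p.1 = H i p.1 - pd i z p.1 := fun i => by
          simp [hq, hpB]
        have hV : (u + F) (Ψ p) = z p.1 + (v p.1 - z p.1) * χ p.2 := by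
          rw [Pi.add_apply, hux, hF, hΨ, splitMul_apply, hf, Set.indicator_of_mem hpB]
          rfl
        have hi2 : (posSet u).indicator (fun _ => (1 : ℝ)) (Ψ p)
            = (posSet z).indicator (fun _ => (1 : ℝ)) p.1 := by
          simp [Set.indicator_apply, posSet, hux]
        rw [hQ, Set.indicator_of_mem hx, hs1, hs2, hi2]
        by_cases ht : |p.2| ≤ T
        · have h1 : p.2 ∈ I1 := abs_le.1 ht
          have h2 : p.2 ∉ I2 := fun h => h.2 h1
          rw [Set.indicator_of_mem h1, Set.indicator_of_notMem h2, mul_one, mul_zero, add_zero,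
            hD0, Set.indicator_of_mem hpB, hχ, slabCut_eq_one ht,
            deriv_slabCut_eq_zero (Or.inl ht)]
          have hV1 : (u + F) (Ψ p) = v p.1 := by rw [hV, hχ, slabCut_eq_one ht]; ring
          have hi1 : (posSet (u + F)).indicator (fun _ => (1 : ℝ)) (Ψ p)
              = (posSet v).indicator (fun _ => (1 : ℝ)) p.1 := by
            rw [Pi.add_apply] at hV1
            simp [Set.indicator_apply, posSet, hV1]
          rw [hi1]
          simp [hqv]
        · have h1 : p.2 ∉ I1 := fun h => ht (abs_le.2 h)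
          have h2 : p.2 ∈ I2 := ⟨abs_le.1 hin.2, h1⟩
          rw [Set.indicator_of_notMem h1, Set.indicator_of_mem h2, mul_one, mul_zero, zero_add,
            hM0, Set.indicator_of_mem hpB]
          have hc1 := slabCut_le_one T p.2
          have hc0 := slabCut_nonneg T p.2
          have a1 : ∀ i, (pd i z p.1 + q i p.1 * χ p.2) ^ 2
              ≤ pd i z p.1 ^ 2 + (2 * ((L : ℝ) * |q i p.1|) + q i p.1 ^ 2) := fun i => by
            have b1 : pd i z p.1 * q i p.1 * χ p.2 ≤ (L : ℝ) * |q i p.1| := by
              refine (le_abs_self _).trans ?_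
              rw [abs_mul, abs_mul, abs_of_nonneg hc0]
              exact (mul_le_of_le_one_right (by positivity) hc1).trans
                (mul_le_mul_of_nonneg_right (abs_pd_le hz i p.1) (abs_nonneg _))
            have b2 : (q i p.1 * χ p.2) ^ 2 ≤ q i p.1 ^ 2 := by
              rw [mul_pow]
              exact mul_le_of_le_one_right (sq_nonneg _) (pow_le_one₀ hc0 hc1)
            nlinarith
          have a2 : (f p.1 * deriv χ p.2) ^ 2 ≤ (2 * Ms) ^ 2 * f p.1 ^ 2 := by
            rw [mul_pow, mul_comm]
            refine mul_le_mul_of_nonneg_right ?_ (sq_nonneg _)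
            rw [← sq_abs]
            exact pow_le_pow_left₀ (abs_nonneg _) (abs_deriv_slabCut_le hMs T p.2) 2
          have a3 := Finset.sum_le_sum fun i (_ : i ∈ Finset.univ) => a1 i
          rw [Finset.sum_add_distrib] at a3
          have a4 : (posSet (u + F)).indicator (fun _ => (1 : ℝ)) (Ψ p) ≤ 1 :=
            Set.indicator_le' (fun _ _ => le_rfl) (fun _ _ => zero_le_one) _
          have a5 : 0 ≤ (posSet z).indicator (fun _ => (1 : ℝ)) p.1 :=
            Set.indicator_nonneg (fun _ _ => zero_le_one) _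
          linarith
      · obtain ⟨z1, z2⟩ := hzero p hp.2.1 hin
        have hQz : Q (Ψ p) = 0 := by
          rw [hQ]
          simp [Set.indicator_apply, posSet, z1, z2]
        rw [hQz]
        refine add_nonneg ?_ (mul_nonneg (hM0nn _) (Set.indicator_nonneg (fun _ _ => zero_le_one) _))
        by_cases ht : p.2 ∈ I1
        · have hyK : p.1 ∉ K := fun h => hin ⟨h, (abs_le.2 ht).trans (by linarith)⟩
          obtain ⟨f0, q0⟩ := hp.2.1 hyK
          have : D0 p.1 = 0 := by
            rw [hD0]
            by_cases hpB : p.1 ∈ B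
            · simp only [hf, Set.indicator_of_mem hpB, Pi.sub_apply, sub_eq_zero] at f0
              simp only [hq, Set.indicator_of_mem hpB, Pi.sub_apply, sub_eq_zero] at q0
              rw [Set.indicator_of_mem hpB]
              simp [q0, Set.indicator_apply, posSet, f0]
            · exact Set.indicator_of_notMem hpB _
          simp [this]
        · simp [ht]
    have hI1 : Integrable (I1.indicator fun _ => (1 : ℝ)) :=
      (integrable_indicator_iff measurableSet_Icc).2 (integrableOn_const measure_Icc_lt_top.ne)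
    have hI2 : Integrable (I2.indicator fun _ => (1 : ℝ)) :=
      (integrable_indicator_iff (measurableSet_Icc.diff measurableSet_Icc)).2
        (integrableOn_const (lt_of_le_of_lt (measure_mono Set.sdiff_subset) measure_Icc_lt_top).ne)
    have h := hQ0.trans (integral_mono_ae ((integrable_split_iff he hι).2 iQ)
      ((iD0.mul_prod hI1).add (iM0.mul_prod hI2)) hbound)
    simp only [Pi.add_apply] at h
    rw [integral_add (iD0.mul_prod hI1) (iM0.mul_prod hI2), integral_prod_mul, integral_prod_mul,
      integral_indicator measurableSet_Icc, setIntegral_const,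
      integral_indicator (measurableSet_Icc.diff measurableSet_Icc), setIntegral_const] at h
    have v1 : (volume : Measure ℝ).real I1 = 2 * T := by
      rw [Real.volume_real_Icc_of_le (by linarith)]; ring
    have v2 : (volume : Measure ℝ).real I2 = 2 := by
      rw [measureReal_sdiff (Set.Icc_subset_Icc (by linarith) (by linarith)) measurableSet_Icc
          measure_Icc_lt_top.ne,
        v1, Real.volume_real_Icc_of_le (by linarith)]
      ring
    rw [v1, v2] at h
    simp only [smul_eq_mul, mul_one] at h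
    linarith
  by_contra hlt
  have hneg : ∫ y, D0 y < 0 := by rw [← hΔ]; linarith [not_le.1 hlt]
  have hm : 0 ≤ ∫ y, M0 y := integral_nonneg hM0nn
  set T := ((∫ y, M0 y) + 1) / -(∫ y, D0 y) with hT
  have hTpos : 0 < T := div_pos (by linarith) (neg_pos.2 hneg)
  have h := key T hTpos
  have : T * -(∫ y, D0 y) = (∫ y, M0 y) + 1 := div_mul_cancel₀ _ (neg_pos.2 hneg).ne'
  nlinarith

end Vale.Agent.P098
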