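import Vale.Agent.P098.Regularity.B3.WeissFormula
import Vale.Agent.P098.Regularity.Assemble.Scale

/-!
P098, block B3b: blow-up limits are one-homogeneous.
-/

open MeasureTheory Filter
open scoped Topology ContDiff NNReal

namespace Vale.Agent.P098

variable {d : ℕ} {L : ℝ≥0} {c : ℝ} {u w : Euc d → ℝ}

/-- `x · ∇u - u`. -/
noncomputable def defect (u : Euc d → ℝ) (x : Euc d) : ℝ := radialPart u x - u x

lemma pd_comp_smul (f : Euc d → ℝ) (t : ℝ) (i : Fin d) (x : Euc d) :
    pd i (fun y => f (t • y)) x = t * pd i f (t • x) := by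
  simp only [pd]
  rw [fderiv_comp_smul]
  simp

lemma defect_rescale (u : Euc d → ℝ) {r : ℝ} (hr : 0 < r) (x : Euc d) :
    defect (rescale u 0 r) x = defect u (r • x) / r := by
  have h : ∀ i, pd i (rescale u 0 r) x = pd i u (r • x) := fun i => by
    have e : rescale u 0 r = r⁻¹ • fun y => u (r • y) := by
      funext y
      simp [rescale, div_eq_inv_mul]
    have h2 : fderiv ℝ (fun y => u (r • y)) x (EuclideanSpace.single i 1) = r * pd i u (r • x) :=
      pd_comp_smul u r i x
    rw [e, pd, fderiv_const_smul_field]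
    simp only [Pi.smul_apply, _root_.smul_apply, smul_eq_mul, h2]
    field_simp
  simp only [defect, radialPart, h, rescale, zero_add, PiLp.smul_apply, smul_eq_mul]
  rw [sub_div, Finset.sum_div]
  congr 1
  exact Finset.sum_congr rfl fun i _ => by field_simp

/-- The defect in a small ball is controlled by the increase of the Weiss function. -/
lemma weissPhi_sub_ge (hu : IsRegMin L c u) {a : ℝ} (ha : 0 < a) {r : ℝ} (hr : 0 < r) :
    4 * Real.exp (-(4 / 3)) * a / (2 * a) ^ (d + 3) *
        ∫ x in Metric.ball (0 : Euc d) (a / 2), defect (rescale u 0 r) x ^ 2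
      ≤ weissPhi u (2 * a * r) - weissPhi u (a * r) := by
  have har : 0 < a * r := mul_pos ha hr
  obtain ⟨s, hs, hd⟩ := exists_hasDerivAt_eq_slope (weissPhi u) _
    (show a * r < 2 * a * r by nlinarith)
    (fun s hs => (hasDerivAt_weissPhi hu (har.trans_le hs.1)).continuousAt.continuousWithinAt)
    (fun s hs => hasDerivAt_weissPhi hu (har.trans hs.1))
  have hs0 : 0 < s := har.trans hs.1
  set e := Real.exp (-(4 / 3)) with he
  have h1 : e * ∫ x in Metric.ball (0 : Euc d) (a * r / 2), defect u x ^ 2
      ≤ -∫ x, wg1 (‖x‖ ^ 2 / s ^ 2) * (radialPart u x - u x) ^ 2 := by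
    rw [← integral_neg, ← integral_const_mul]
    have hint : Integrable fun x => -(wg1 (‖x‖ ^ 2 / s ^ 2) * (radialPart u x - u x) ^ 2) := by
      refine Integrable.neg (IntegrableOn.integrable_of_forall_notMem_eq_zero
        (s := Metric.closedBall (0 : Euc d) s) ?_ fun x hx => by
          simp [wg1_eq_zero (one_le_q hs0 hx)])
      exact hu.integrableOn_comp_grad
        (Φ := fun q => wg1 (‖q.2‖ ^ 2 / s ^ 2) * ((∑ i, q.2 i * q.1 i) - u q.2) ^ 2)
        (by have := hu.lip.continuous; have := contDiff_wg1.continuous; fun_prop)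
        Metric.isBounded_closedBall
    refine le_trans ?_ (setIntegral_le_integral (s := Metric.ball (0 : Euc d) (a * r / 2)) hint
      (Eventually.of_forall fun x => neg_nonneg.2
        (mul_nonpos_of_nonpos_of_nonneg (wg1_nonpos _) (sq_nonneg _))))
    refine setIntegral_mono_on ?_ hint.integrableOn measurableSet_ball fun x hx => ?_
    · exact hu.integrableOn_comp_grad
        (Φ := fun q => e * ((∑ i, q.2 i * q.1 i) - u q.2) ^ 2)
        (by have := hu.lip.continuous; fun_prop) Metric.isBounded_ball
    · rw [← neg_mul]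
      refine mul_le_mul_of_nonneg_right ?_ (sq_nonneg _)
      rw [Metric.mem_ball, dist_zero_right] at hx
      have hq : ‖x‖ ^ 2 / s ^ 2 ≤ 1 / 4 := by
        rw [div_le_iff₀ (pow_pos hs0 2)]
        nlinarith [hs.1, norm_nonneg x]
      linarith [wg1_le_of_le (by positivity) hq]
  have h2 : ∫ x in Metric.ball (0 : Euc d) (a * r / 2), defect u x ^ 2
      = r ^ (d + 2) * ∫ x in Metric.ball (0 : Euc d) (a / 2), defect (rescale u 0 r) x ^ 2 := by
    have h := Measure.setIntegral_comp_smul_of_pos (μ := (volume : Measure (Euc d)))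
      (fun x => defect u x ^ 2) (s := Metric.ball (0 : Euc d) (a / 2)) hr
    rw [smul_ball hr.ne', smul_zero, Real.norm_eq_abs, abs_of_pos hr,
      show r * (a / 2) = a * r / 2 by ring, finrank_euclideanSpace_fin, smul_eq_mul] at h
    have e2 : ∫ x in Metric.ball (0 : Euc d) (a / 2), defect (rescale u 0 r) x ^ 2
        = (r ^ 2)⁻¹ * ∫ x in Metric.ball (0 : Euc d) (a / 2), defect u (r • x) ^ 2 := by
      rw [← integral_const_mul]
      refine integral_congr_ae (Eventually.of_forall fun x => ?_)
      simp only [defect_rescale u hr, div_pow]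
      ring
    rw [e2, h, pow_add]
    field_simp
  rw [h2] at h1
  set J := ∫ x in Metric.ball (0 : Euc d) (a / 2), defect (rescale u 0 r) x ^ 2
  have hJ : 0 ≤ J := integral_nonneg fun _ => sq_nonneg _
  rw [eq_div_iff (by nlinarith : (2 * a * r - a * r) ≠ 0)] at hd
  rw [← hd]
  have hp : s ^ (d + 3) ≤ (2 * a * r) ^ (d + 3) := pow_le_pow_left₀ hs0.le hs.2.le _
  set I := ∫ x, wg1 (‖x‖ ^ 2 / s ^ 2) * (radialPart u x - u x) ^ 2
  calc 4 * e * a / (2 * a) ^ (d + 3) * J
      = 4 / (2 * a * r) ^ (d + 3) * (e * (r ^ (d + 2) * J)) * (2 * a * r - a * r) := by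
        rw [mul_pow]
        field_simp
        ring
    _ ≤ 4 / s ^ (d + 3) * (e * (r ^ (d + 2) * J)) * (2 * a * r - a * r) := by
        gcongr
        nlinarith
    _ ≤ 4 / s ^ (d + 3) * -I * (2 * a * r - a * r) := by
        gcongr
        nlinarith
    _ = _ := by ring

/-- Blow-ups have small defect. -/
lemma tendsto_defect (hu : IsRegMin L c u) (h0 : u 0 = 0) {r : ℕ → ℝ} (hr : ∀ k, 0 < r k)
    (hr0 : Tendsto r atTop (𝓝 0)) {a : ℝ} (ha : 0 < a) :
    Tendsto (fun k => ∫ x in Metric.ball (0 : Euc d) a, defect (rescale u 0 (r k)) x ^ 2)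
      atTop (𝓝 0) := by
  obtain ⟨C, hC⟩ := exists_abs_weissPhi_le hu h0
  have hm := monotoneOn_weissPhi hu
  have hlim : Tendsto (weissPhi u) (𝓝[>] 0) (𝓝 (sInf (weissPhi u '' Set.Ioi 0))) := by
    refine MonotoneOn.tendsto_nhdsGT hm ?_
    exact ⟨-C, fun y ⟨r, hr, hy⟩ => hy ▸ (abs_le.1 (hC r hr)).1⟩
  have hsc : ∀ b, 0 < b → Tendsto (fun k => weissPhi u (b * r k)) atTop
      (𝓝 (sInf (weissPhi u '' Set.Ioi 0))) := fun b hb => by
    refine hlim.comp (tendsto_nhdsWithin_iff.2 ⟨?_, Eventually.of_forall fun k => mul_pos hb (hr k)⟩)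
    simpa using hr0.const_mul b
  have hK : 0 < 4 * Real.exp (-(4 / 3)) * (2 * a) / (2 * (2 * a)) ^ (d + 3) := by positivity
  have ht : Tendsto (fun k => (weissPhi u (2 * (2 * a) * r k) - weissPhi u (2 * a * r k))
      / (4 * Real.exp (-(4 / 3)) * (2 * a) / (2 * (2 * a)) ^ (d + 3))) atTop (𝓝 0) := by
    simpa using ((hsc (2 * (2 * a)) (by positivity)).sub (hsc (2 * a) (by positivity))).div_const
      (4 * Real.exp (-(4 / 3)) * (2 * a) / (2 * (2 * a)) ^ (d + 3))
  refine squeeze_zero (fun k => integral_nonneg fun _ => sq_nonneg _) (fun k => ?_) ht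
  rw [le_div_iff₀ hK]
  have h := weissPhi_sub_ge hu (show 0 < 2 * a by positivity) (hr k)
  rw [show 2 * a / 2 = a by ring] at h
  linarith

/-- A limit of functions with vanishing defect has none. -/
lemma defect_eq_zero_ae {v : ℕ → Euc d → ℝ} (hv : ∀ k, LipschitzWith L (v k))
    (hlim : ∀ x, Tendsto (fun k => v k x) atTop (𝓝 (w x)))
    (hd : ∀ a : ℝ, 0 < a → Tendsto (fun k => ∫ x in Metric.ball (0 : Euc d) a, defect (v k) x ^ 2)
      atTop (𝓝 0)) : defect w =ᵐ[volume] 0 := by
  have hw := lipschitzWith_of_tendsto hv hlim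
  suffices H : ∀ n : ℕ, defect w =ᵐ[volume.restrict (Metric.ball (0 : Euc d) (n + 1))] 0 by
    have e : (⋃ n : ℕ, Metric.ball (0 : Euc d) (n + 1)) = Set.univ :=
      Set.eq_univ_of_forall fun x => Set.mem_iUnion.2 ⟨⌈‖x‖⌉₊, by
        simp only [Metric.mem_ball, dist_zero_right]
        linarith [Nat.le_ceil ‖x‖]⟩
    have h := (ae_restrict_iUnion_iff (μ := (volume : Measure (Euc d)))
      (fun n : ℕ => Metric.ball (0 : Euc d) (n + 1)) (fun x => defect w x = (0 : Euc d → ℝ) x)).2 H
    rw [e, Measure.restrict_univ] at h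
    exact h
  intro n
  set a : ℝ := (n : ℝ) + 1 with ha
  set B := Metric.ball (0 : Euc d) a
  have hfin := isFiniteMeasure_restrict (d := d) (B := B) Metric.isBounded_ball
  have hdi : ∀ {f : Euc d → ℝ}, LipschitzWith L f → MemLp (defect f) 2 (volume.restrict B) := by
    intro f hf
    have hm : AEStronglyMeasurable (defect f) (volume.restrict B) := by
      refine AEStronglyMeasurable.sub ?_ hf.continuous.aestronglyMeasurable
      exact (Finset.measurable_sum Finset.univ fun i _ =>
        (EuclideanSpace.proj (𝕜 := ℝ) i).continuous.measurable.mul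
          (measurable_pd f i)).aestronglyMeasurable
    refine MemLp.of_bound hm ((d : ℝ) * (a * L) + (|f 0| + L * a))
      ((ae_restrict_iff' measurableSet_ball).2 (Eventually.of_forall fun x hx => ?_))
    rw [Metric.mem_ball, dist_zero_right] at hx
    refine (norm_sub_le _ _).trans (add_le_add ?_ ?_)
    · refine (norm_sum_le _ _).trans ?_
      have : ∀ i ∈ (Finset.univ : Finset (Fin d)), ‖x i * pd i f x‖ ≤ a * L := fun i _ => by
        rw [norm_mul]
        exact mul_le_mul ((PiLp.norm_apply_le x i).trans hx.le) (abs_pd_le hf i x) (norm_nonneg _)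
          (by positivity)
      simpa using Finset.sum_le_sum this
    · have h := hf.norm_sub_le x 0
      rw [sub_zero] at h
      have h3 := norm_le_norm_add_norm_sub' (f x) (f 0)
      rw [Real.norm_eq_abs (f 0)] at h3
      linarith [mul_le_mul_of_nonneg_left hx.le L.coe_nonneg]
  refine Integrable.ae_eq_zero_of_forall_setIntegral_eq_zero ((hdi hw).integrable one_le_two)
    fun s hs _ => ?_
  rw [Measure.restrict_restrict hs]
  set S := s ∩ B with hS
  have hSm : MeasurableSet S := hs.inter measurableSet_ball
  have hSb : Bornology.IsBounded S := Metric.isBounded_ball.subset Set.inter_subset_right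
  have := isFiniteMeasure_restrict hSb
  have iterm : ∀ {f : Euc d → ℝ}, LipschitzWith L f → ∀ i,
      IntegrableOn (fun x => x i * pd i f x) S := fun hf i => by
    refine Integrable.mul_bdd (c := (L : ℝ)) ?_ (measurable_pd _ i).aestronglyMeasurable
      (Eventually.of_forall fun x => abs_pd_le hf i x)
    exact ((EuclideanSpace.proj (𝕜 := ℝ) i).continuous.continuousOn.integrableOn_compact
      hSb.isCompact_closure).mono_set subset_closure
  have icont : ∀ {f : Euc d → ℝ}, LipschitzWith L f → IntegrableOn f S := fun hf =>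
    (hf.continuous.continuousOn.integrableOn_compact hSb.isCompact_closure).mono_set subset_closure
  have esplit : ∀ {f : Euc d → ℝ}, LipschitzWith L f →
      ∫ x in S, defect f x = (∑ i, ∫ x, pd i f x * S.indicator (fun y => y i) x) - ∫ x in S, f x := by
    intro f hf
    simp only [defect, radialPart]
    rw [integral_sub (integrable_finsetSum _ fun i _ => iterm hf i) (icont hf),
      integral_finsetSum _ fun i _ => iterm hf i]
    congr 1
    refine Finset.sum_congr rfl fun i _ => ?_
    simp only [← Set.indicator_mul_right, integral_indicator hSm, mul_comm]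
  obtain ⟨B0, hB0⟩ := (Metric.isBounded_range_of_tendsto _ (hlim 0)).exists_norm_le
  have h1 : Tendsto (fun k => ∫ x in S, defect (v k) x) atTop (𝓝 (∫ x in S, defect w x)) := by
    simp only [esplit (hv _), esplit hw]
    refine (tendsto_finsetSum _ fun i _ => tendsto_integral_pd_mul hv hlim ?_ i).sub ?_
    · exact (integrable_indicator_iff hSm).2
        (((EuclideanSpace.proj (𝕜 := ℝ) i).continuous.continuousOn.integrableOn_compact
          hSb.isCompact_closure).mono_set subset_closure)
    · refine tendsto_integral_of_dominated_convergence (fun _ => B0 + L * a)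
        (fun k => (hv k).continuous.aestronglyMeasurable) (integrable_const _) (fun k => ?_)
        (Eventually.of_forall hlim)
      refine (ae_restrict_iff' hSm).2 (Eventually.of_forall fun x hx => ?_)
      have hxB := hx.2
      rw [Metric.mem_ball, dist_zero_right] at hxB
      have h := (hv k).norm_sub_le x 0
      rw [sub_zero] at h
      have h2 := hB0 _ (Set.mem_range_self k)
      linarith [norm_le_norm_add_norm_sub' (v k x) (v k 0),
        mul_le_mul_of_nonneg_left hxB.le L.coe_nonneg]
  -- Cauchy-Schwarz, in the form `|z| ≤ ε + z² / ε`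
  refine tendsto_nhds_unique h1 (Metric.tendsto_atTop.2 fun ε hε => ?_)
  set δ := ε / (2 * (volume.real S + 1)) with hδ
  have hδ0 : 0 < δ := by positivity
  obtain ⟨N, hN⟩ := eventually_atTop.1 ((hd a (by positivity)).eventually
    (gt_mem_nhds (show 0 < δ * (ε / 2) by positivity)))
  refine ⟨N, fun k hk => ?_⟩
  rw [Real.dist_eq, sub_zero]
  have i2 : IntegrableOn (fun x => defect (v k) x ^ 2) B := (hdi (hv k)).integrable_sq
  have i2S : IntegrableOn (fun x => defect (v k) x ^ 2) S := i2.mono_set Set.inter_subset_right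
  have hpt : ∀ x, |defect (v k) x| ≤ δ + defect (v k) x ^ 2 / δ := fun x => by
    rw [← sub_nonneg]
    have e : δ + defect (v k) x ^ 2 / δ - |defect (v k) x|
        = ((δ - |defect (v k) x|) ^ 2 + δ * |defect (v k) x|) / δ := by
      rw [← sq_abs (defect (v k) x)]
      field_simp
      ring
    rw [e]
    positivity
  calc |∫ x in S, defect (v k) x| ≤ ∫ x in S, |defect (v k) x| := abs_integral_le_integral_abs
    _ ≤ ∫ x in S, (δ + defect (v k) x ^ 2 / δ) :=
        integral_mono ((((hdi (hv k)).integrable one_le_two).mono_measure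
          (Measure.restrict_mono Set.inter_subset_right le_rfl)).abs)
          ((integrable_const δ).add (i2S.div_const δ)) hpt
    _ = δ * volume.real S + (∫ x in S, defect (v k) x ^ 2) / δ := by
        rw [integral_add (integrable_const δ) (i2S.div_const δ), setIntegral_const, smul_eq_mul,
          mul_comm (volume.real S)]
        exact congrArg _ (integral_div δ fun x => defect (v k) x ^ 2)
    _ ≤ δ * volume.real S + (∫ x in B, defect (v k) x ^ 2) / δ := by
        gcongr
        · exact Eventually.of_forall fun _ => sq_nonneg _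
        · exact Set.inter_subset_right
    _ < ε := by
        have hb := hN k hk
        have h3 : (∫ x in B, defect (v k) x ^ 2) / δ < ε / 2 := by
          rw [div_lt_iff₀ hδ0]
          linarith
        have h4 : δ * volume.real S ≤ ε / 2 := by
          rw [hδ, div_mul_eq_mul_div, div_le_iff₀ (by positivity)]
          nlinarith [measureReal_nonneg (μ := (volume : Measure (Euc d))) (s := S)]
        linarith

/-- Euler's identity almost everywhere makes a Lipschitz function homogeneous. -/
theorem isHomogeneous_of_defect (hw : LipschitzWith L w) (h : defect w =ᵐ[volume] 0) :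
    IsHomogeneous w := by
  intro t ht
  have hqm : ∀ s : ℝ, 0 < s → Measure.QuasiMeasurePreserving (fun x : Euc d => s • x) volume volume :=
    fun s hs => ⟨measurable_const_smul s, by
      rw [Measure.map_addHaar_smul _ hs.ne']
      exact Measure.smul_absolutelyContinuous⟩
  suffices he : (fun x => w (t • x) / t) =ᵐ[volume] w by
    intro x
    have := congrFun ((Continuous.ae_eq_iff_eq volume
      ((hw.continuous.comp (continuous_const_smul t)).div_const t) hw.continuous).1 he) x
    rw [← this]
    simp only [Function.comp_apply, mul_div_cancel₀ _ ht.ne']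
  have hint : ∀ {s : ℝ} {S : Set (Euc d)}, Bornology.IsBounded S →
      IntegrableOn (fun x => w (s • x) / s) S := fun hS =>
    (((hw.continuous.comp (continuous_const_smul _)).div_const _).continuousOn.integrableOn_compact
      hS.isCompact_closure).mono_set subset_closure
  have key : ∀ S : Set (Euc d), MeasurableSet S → Bornology.IsBounded S →
      ∫ x in S, w (t • x) / t = ∫ x in S, w x := by
    intro S hS hSb
    obtain ⟨P, hP⟩ := hSb.exists_norm_le
    have := isFiniteMeasure_restrict hSb
    have hd : ∀ s : ℝ, 0 < s → HasDerivAt (fun s => ∫ x in S, w (s • x) / s) 0 s := by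
      intro s hs
      have h1 : ∀ᵐ x ∂(volume.restrict S), HasDerivAt (fun s => w (s • x) / s) 0 s := by
        refine ae_restrict_of_ae ?_
        filter_upwards [(hqm s hs).ae hw.ae_differentiableAt, (hqm s hs).ae h] with x hx h0
        have h2 : HasDerivAt (fun s : ℝ => s • x) x s := by
          simpa using (hasDerivAt_id s).smul_const x
        refine ((hx.hasFDerivAt.comp_hasDerivAt s h2).div (hasDerivAt_id s) hs.ne').congr_deriv ?_
        have e : fderiv ℝ w (s • x) x * s = radialPart w (s • x) := by
          rw [clm_apply_eq_sum (fderiv ℝ w (s • x)) x, Finset.sum_mul]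
          refine Finset.sum_congr rfl fun i _ => ?_
          simp only [pd, PiLp.smul_apply, smul_eq_mul]
          ring
        simp only [defect, Pi.zero_apply] at h0
        simp only [id_eq, mul_one, e, h0, zero_div]
      set bd : ℝ := (L : ℝ) * max P 0 * (2 / s) + (|w 0| + L * (2 * s * max P 0)) * (4 / s ^ 2)
      have h3 : ∀ᵐ x ∂(volume.restrict S), LipschitzOnWith (Real.nnabs bd)
          (fun s => w (s • x) / s) (Metric.ball s (s / 2)) := by
        refine (ae_restrict_iff' hS).2 (Eventually.of_forall fun x hx => ?_)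
        refine LipschitzOnWith.of_dist_le_mul fun p hp q hq => ?_
        rw [Metric.mem_ball, Real.dist_eq, abs_lt] at hp hq
        have hp0 : 0 < p := by linarith
        have hq0 : 0 < q := by linarith
        have hxP : ‖x‖ ≤ max P 0 := (hP x hx).trans (le_max_left _ _)
        have a1 : |w (p • x) - w (q • x)| ≤ (L : ℝ) * max P 0 * |p - q| := by
          have h4 := hw.dist_le_mul (p • x) (q • x)
          rw [Real.dist_eq, dist_eq_norm, ← sub_smul, norm_smul, Real.norm_eq_abs] at h4
          refine h4.trans ?_
          rw [mul_assoc (L : ℝ), mul_comm (max P 0)]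
          exact mul_le_mul_of_nonneg_left (mul_le_mul_of_nonneg_left hxP (abs_nonneg _)) L.coe_nonneg
        have a2 : |w (q • x)| ≤ |w 0| + L * (2 * s * max P 0) := by
          have h4 := hw.dist_le_mul (q • x) 0
          rw [Real.dist_eq, dist_zero_right, norm_smul, Real.norm_eq_abs, abs_of_pos hq0] at h4
          have h5 : (L : ℝ) * (q * ‖x‖) ≤ L * (2 * s * max P 0) :=
            mul_le_mul_of_nonneg_left (mul_le_mul (by linarith) hxP (norm_nonneg _) (by linarith))
              L.coe_nonneg
          linarith [abs_sub_abs_le_abs_sub (w (q • x)) (w 0)]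
        have e : w (p • x) / p - w (q • x) / q
            = (w (p • x) - w (q • x)) / p + w (q • x) * ((q - p) / (p * q)) := by
          field_simp
          ring
        have hbd : 0 ≤ bd := by positivity
        rw [Real.dist_eq, Real.dist_eq, Real.coe_nnabs, abs_of_nonneg hbd, e]
        refine (abs_add_le _ _).trans ?_
        rw [abs_div, abs_mul, abs_div, abs_mul, abs_of_pos hp0, abs_of_pos hq0, abs_sub_comm q p]
        have b1 : 1 / p ≤ 2 / s := by rw [div_le_div_iff₀ hp0 hs]; linarith
        have b2 : 1 / (p * q) ≤ 4 / s ^ 2 := by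
          rw [div_le_div_iff₀ (mul_pos hp0 hq0) (pow_pos hs 2)]
          nlinarith [mul_le_mul (show s ≤ 2 * p by linarith) (show s ≤ 2 * q by linarith) hs.le
            (by linarith)]
        calc |w (p • x) - w (q • x)| / p + |w (q • x)| * (|p - q| / (p * q))
            = |w (p • x) - w (q • x)| * (1 / p) + |w (q • x)| * (1 / (p * q)) * |p - q| := by ring
          _ ≤ (L : ℝ) * max P 0 * |p - q| * (2 / s)
              + (|w 0| + L * (2 * s * max P 0)) * (4 / s ^ 2) * |p - q| := by gcongr
          _ = bd * |p - q| := by simp only [bd]; ring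
      have h5 := hasDerivAt_integral_of_dominated_loc_of_lip (μ := volume.restrict S)
        (F := fun s x => w (s • x) / s) (F' := fun _ => (0 : ℝ)) (x₀ := s)
        (bound := fun _ => bd) (s := Metric.ball s (s / 2))
        (Metric.ball_mem_nhds s (by positivity))
        (Eventually.of_forall fun p =>
          ((hw.continuous.comp (continuous_const_smul p)).div_const p).aestronglyMeasurable)
        (hint hSb) aestronglyMeasurable_const h3 (integrable_const _) h1
      simpa using h5.2
    have hc := (convex_Ioi (0 : ℝ)).is_const_of_fderivWithin_eq_zero (𝕜 := ℝ)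
      (f := fun s => ∫ x in S, w (s • x) / s)
      (fun s hs => (hd s hs).differentiableAt.differentiableWithinAt)
      (fun s hs => by
        rw [fderivWithin_of_isOpen isOpen_Ioi hs, (hd s hs).hasFDerivAt.fderiv]
        ext
        simp) (show t ∈ Set.Ioi (0 : ℝ) from ht) (Set.mem_Ioi.2 (one_pos : (0 : ℝ) < 1))
    simpa using hc
  have e : (⋃ n : ℕ, Metric.ball (0 : Euc d) (n + 1)) = Set.univ :=
    Set.eq_univ_of_forall fun x => Set.mem_iUnion.2 ⟨⌈‖x‖⌉₊, by
      simp only [Metric.mem_ball, dist_zero_right]
      linarith [Nat.le_ceil ‖x‖]⟩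
  have H : ∀ n : ℕ, ∀ᵐ x ∂volume.restrict (Metric.ball (0 : Euc d) (n + 1)),
      w (t • x) / t = w x := by
    intro n
    have hb : Bornology.IsBounded (Metric.ball (0 : Euc d) (n + 1)) := Metric.isBounded_ball
    refine Integrable.ae_eq_of_forall_setIntegral_eq _ _ (hint hb)
      ((hw.continuous.continuousOn.integrableOn_compact hb.isCompact_closure).mono_set subset_closure)
      fun s hs _ => ?_
    rw [Measure.restrict_restrict hs]
    exact key _ (hs.inter measurableSet_ball) (hb.subset Set.inter_subset_right)
  have h := (ae_restrict_iUnion_iff (μ := (volume : Measure (Euc d)))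
    (fun n : ℕ => Metric.ball (0 : Euc d) (n + 1)) (fun x => w (t • x) / t = w x)).2 H
  rwa [e, Measure.restrict_univ] at h

/-- B3b. -/
theorem weissBlock (d : ℕ) : WeissBlock d := by
  intro L c _ u x₀ r w hu h0 hr hr0 hlim
  have hv : IsRegMin L c (rescale u x₀ 1) := hu.rescale one_pos x₀
  have e : ∀ k, rescale (rescale u x₀ 1) 0 (r k) = rescale u x₀ (r k) := fun k => by
    funext x
    simp [rescale]
  have hpt : ∀ x, Tendsto (fun k => rescale u x₀ (r k) x) atTop (𝓝 (w x)) := fun x =>
    hlim.tendstoLocallyUniformlyOn.tendsto_at (Set.mem_univ x)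
  have hl : ∀ k, LipschitzWith L (rescale u x₀ (r k)) := fun k => (hu.rescale (hr k) x₀).lip
  refine isHomogeneous_of_defect (lipschitzWith_of_tendsto hl hpt)
    (defect_eq_zero_ae hl hpt fun a ha => ?_)
  simpa only [e] using tendsto_defect hv (by simp [rescale, h0]) hr hr0 ha

end Vale.Agent.P098
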