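import Vale.Agent.P098.Regularity.B3.Compact

/-!
P098, block B3: orthogonal coordinates `(y, t) ↦ ι y + t e` on `Euc (d + 1)` and products.
-/

open MeasureTheory Filter
open scoped Topology ContDiff NNReal RealInnerProductSpace

namespace Vale.Agent.P098

variable {d : ℕ} {e : Euc (d + 1)} {ι : Euc d →ₗᵢ[ℝ] Euc (d + 1)}

/-- The coordinates. -/
noncomputable def splitEquiv (he : ‖e‖ = 1) (hι : ∀ y, ⟪e, ι y⟫ = 0) :
    (Euc d × ℝ) ≃L[ℝ] Euc (d + 1) :=
  (LinearEquiv.ofBijective (ι.toLinearMap.coprod (LinearMap.toSpanSingleton ℝ _ e)) (by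
    have hinj : Function.Injective (ι.toLinearMap.coprod (LinearMap.toSpanSingleton ℝ _ e)) := by
      refine (injective_iff_map_eq_zero _).2 fun p hp => ?_
      simp only [LinearMap.coprod_apply, LinearMap.toSpanSingleton_apply] at hp
      have h1 := congrArg (fun x => ⟪e, x⟫) hp
      simp only [inner_add_right, inner_smul_right, inner_zero_right] at h1
      rw [real_inner_self_eq_norm_sq, he] at h1
      have h2 : p.2 = 0 := by
        have := hι p.1
        simp only [LinearIsometry.coe_toLinearMap] at h1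
        linarith
      rw [h2, zero_smul, add_zero, LinearIsometry.coe_toLinearMap, ← map_zero ι] at hp
      exact Prod.ext (ι.injective hp) h2
    refine ⟨hinj, (LinearMap.injective_iff_surjective_of_finrank_eq_finrank ?_).1 hinj⟩
    simp)).toContinuousLinearEquiv

variable (he : ‖e‖ = 1) (hι : ∀ y, ⟪e, ι y⟫ = 0)

lemma splitEquiv_apply (p : Euc d × ℝ) : splitEquiv he hι p = ι p.1 + p.2 • e := rfl

lemma splitEquiv_symm (x : Euc (d + 1)) :
    ((splitEquiv he hι).symm x).2 = ⟪e, x⟫ ∧
      ∀ i, ((splitEquiv he hι).symm x).1 i = ⟪ι (EuclideanSpace.single i 1), x⟫ := by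
  set p := (splitEquiv he hι).symm x with hp
  have hx : x = ι p.1 + p.2 • e := by
    rw [← splitEquiv_apply he hι, hp, ContinuousLinearEquiv.apply_symm_apply]
  refine ⟨?_, fun i => ?_⟩
  · rw [hx, inner_add_right, hι, inner_smul_right, real_inner_self_eq_norm_sq, he]
    ring
  · rw [hx, inner_add_right, inner_smul_right, ι.inner_map_map, real_inner_comm e, hι,
      EuclideanSpace.inner_single_left]
    simp

lemma splitEquiv_symm_single (j : Fin (d + 1)) :
    ((splitEquiv he hι).symm (EuclideanSpace.single j 1)).2 = e j ∧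
      ∀ i, ((splitEquiv he hι).symm (EuclideanSpace.single j 1)).1 i
        = ι (EuclideanSpace.single i 1) j := by
  obtain ⟨h1, h2⟩ := splitEquiv_symm he hι (EuclideanSpace.single j (1 : ℝ))
  refine ⟨?_, fun i => ?_⟩
  · rw [h1, EuclideanSpace.inner_single_right]; simp
  · rw [h2, EuclideanSpace.inner_single_right]; simp

include hι he in
/-- Squares in orthogonal coordinates. -/
lemma sum_sq_coords (α : Fin d → ℝ) (β : ℝ) :
    ∑ j, ((∑ i, ι (EuclideanSpace.single i 1) j * α i) + e j * β) ^ 2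
      = ∑ i, α i ^ 2 + β ^ 2 := by
  have h : ∀ j, (∑ i, ι (EuclideanSpace.single i 1) j * α i) + e j * β
      = (ι (WithLp.toLp 2 α) + β • e) j := by
    intro j
    have e1 : WithLp.toLp 2 α = ∑ i, α i • EuclideanSpace.single i (1 : ℝ) := by
      ext k
      simp [Pi.single_apply]
    rw [e1, map_sum]
    simp [mul_comm]
  simp only [h]
  rw [← EuclideanSpace.real_norm_sq_eq, norm_add_sq_real, norm_smul, he, ι.norm_map,
    inner_smul_right, real_inner_comm, hι, EuclideanSpace.real_norm_sq_eq, Real.norm_eq_abs,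
    mul_one, sq_abs]
  simp

lemma exists_map_splitEquiv :
    ∃ κ : ℝ≥0, 0 < κ ∧ Measure.map (splitEquiv he hι)
      ((volume : Measure (Euc d)).prod (volume : Measure ℝ)) = κ • (volume : Measure (Euc (d + 1))) := by
  have := (splitEquiv he hι).isAddHaarMeasure_map
    ((volume : Measure (Euc d)).prod (volume : Measure ℝ))
  exact ⟨_, Measure.addHaarScalarFactor_pos_of_isAddHaarMeasure _ _,
    Measure.isAddLeftInvariant_eq_smul _ _⟩

lemma ae_split_iff {P : Euc (d + 1) → Prop} :
    (∀ᵐ p ∂((volume : Measure (Euc d)).prod (volume : Measure ℝ)), P (splitEquiv he hι p))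
      ↔ ∀ᵐ x, P x := by
  obtain ⟨κ, hκ, hmap⟩ := exists_map_splitEquiv he hι
  refine ((splitEquiv he hι).toHomeomorph.measurableEmbedding.ae_map_iff
    (μ := (volume : Measure (Euc d)).prod (volume : Measure ℝ)) (p := P)).symm.trans ?_
  show (∀ᵐ x ∂Measure.map (splitEquiv he hι) _, P x) ↔ _
  rw [hmap]
  have h2 : ae ((κ : ENNReal) • (volume : Measure (Euc (d + 1)))) = ae volume :=
    Measure.ae_ennreal_smul_measure_eq (by exact_mod_cast hκ.ne') _
  exact Iff.of_eq (congrArg (fun F : Filter (Euc (d + 1)) => ∀ᶠ x in F, P x) h2)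

/-- Integrals in the coordinates. -/
lemma integrable_split_iff {f : Euc (d + 1) → ℝ} :
    Integrable (fun p => f (splitEquiv he hι p))
        ((volume : Measure (Euc d)).prod (volume : Measure ℝ)) ↔ Integrable f := by
  obtain ⟨κ, hκ, hmap⟩ := exists_map_splitEquiv he hι
  have h := ((splitEquiv he hι).toHomeomorph.measurableEmbedding.integrable_map_iff
    (μ := (volume : Measure (Euc d)).prod (volume : Measure ℝ)) (g := f))
  refine h.symm.trans ?_
  show Integrable f (Measure.map (splitEquiv he hι) _) ↔ _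
  rw [hmap]
  exact integrable_smul_measure (by exact_mod_cast hκ.ne') ENNReal.coe_ne_top

lemma exists_integral_split :
    ∃ κ : ℝ, 0 < κ ∧ ∀ f : Euc (d + 1) → ℝ,
      ∫ p, f (splitEquiv he hι p) ∂((volume : Measure (Euc d)).prod (volume : Measure ℝ))
        = κ * ∫ x, f x := by
  obtain ⟨κ, hκ, hmap⟩ := exists_map_splitEquiv he hι
  refine ⟨κ, by exact_mod_cast hκ, fun f => ?_⟩
  have h := ((splitEquiv he hι).toHomeomorph.measurableEmbedding.integral_map
    (μ := (volume : Measure (Euc d)).prod (volume : Measure ℝ)) f)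
  refine h.symm.trans ?_
  show ∫ x, f x ∂Measure.map (splitEquiv he hι) _ = _
  rw [hmap, integral_smul_nnreal_measure, NNReal.smul_def, smul_eq_mul]

lemma aestronglyMeasurable_of_split {f : Euc (d + 1) → ℝ}
    (h : AEStronglyMeasurable (fun p => f (splitEquiv he hι p))
      ((volume : Measure (Euc d)).prod (volume : Measure ℝ))) :
    AEStronglyMeasurable f volume := by
  obtain ⟨κ, hκ, hmap⟩ := exists_map_splitEquiv he hι
  have h2 : AEStronglyMeasurable f (Measure.map (splitEquiv he hι)
      ((volume : Measure (Euc d)).prod (volume : Measure ℝ))) :=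
    ((splitEquiv he hι).toHomeomorph.measurableEmbedding.aestronglyMeasurable_map_iff).2 h
  rw [hmap] at h2
  exact h2.mono_ac (Measure.AbsolutelyContinuous.mk fun s _ hs => by simpa [hκ.ne'] using hs)

/-- `χ ⊗ f` in the coordinates. -/
noncomputable def splitMul (χ : ℝ → ℝ) (f : Euc d → ℝ) (x : Euc (d + 1)) : ℝ :=
  f ((splitEquiv he hι).symm x).1 * χ ((splitEquiv he hι).symm x).2

lemma splitMul_apply (χ : ℝ → ℝ) (f : Euc d → ℝ) (p : Euc d × ℝ) :
    splitMul he hι χ f (splitEquiv he hι p) = f p.1 * χ p.2 := by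
  simp [splitMul]

lemma memLp_splitMul {χ : ℝ → ℝ} {f : Euc d → ℝ} (hχ : Continuous χ) (hχs : HasCompactSupport χ)
    (hf : MemLp f 2 volume) : MemLp (splitMul he hι χ f) 2 volume := by
  have hm : AEStronglyMeasurable (fun p => splitMul he hι χ f (splitEquiv he hι p))
      ((volume : Measure (Euc d)).prod (volume : Measure ℝ)) := by
    simp only [splitMul_apply]
    exact hf.aestronglyMeasurable.comp_fst.mul (hχ.comp continuous_snd).aestronglyMeasurable
  refine (memLp_two_iff_integrable_sq (aestronglyMeasurable_of_split he hι hm)).2 ?_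
  refine (integrable_split_iff he hι (f := fun x => splitMul he hι χ f x ^ 2)).1 ?_
  have h2 : HasCompactSupport fun t => χ t ^ 2 :=
    HasCompactSupport.intro hχs.isCompact fun t ht => by
      simp [image_eq_zero_of_notMem_tsupport ht]
  have h1 : Integrable (fun p : Euc d × ℝ => f p.1 ^ 2 * χ p.2 ^ 2)
      ((volume : Measure (Euc d)).prod (volume : Measure ℝ)) :=
    Integrable.mul_prod (f := fun y => f y ^ 2) (g := fun t => χ t ^ 2) hf.integrable_sq
      ((hχ.pow 2).integrable_of_hasCompactSupport h2)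
  simp only [splitMul_apply, mul_pow]
  exact h1

/-- The partial derivatives of `χ ⊗ f`. -/
noncomputable def splitGrad (χ : ℝ → ℝ) (f : Euc d → ℝ) (q : Fin d → Euc d → ℝ) (j : Fin (d + 1))
    (x : Euc (d + 1)) : ℝ :=
  (∑ i, ι (EuclideanSpace.single i 1) j * splitMul he hι χ (q i) x)
    + e j * splitMul he hι (deriv χ) f x

/-- `χ ⊗ f` has the expected weak gradient. -/
lemma hasWeakGrad_splitMul {χ : ℝ → ℝ} (hχ : ContDiff ℝ ∞ χ) (hχs : HasCompactSupport χ)
    {f : Euc d → ℝ} {q : Fin d → Euc d → ℝ} (hf : MemLp f 2 volume) (hf1 : Integrable f)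
    (hq : ∀ i, MemLp (q i) 2 volume) (hq1 : ∀ i, Integrable (q i))
    (hw : ∀ (i : Fin d) (φ : Euc d → ℝ), ContDiff ℝ ∞ φ → HasCompactSupport φ →
      ∫ y, f y * pd i φ y = -∫ y, q i y * φ y) (B : Set (Euc (d + 1))) :
    HasWeakGrad B (splitMul he hι χ f) (splitGrad he hι χ f q) := by
  have hχ' : Continuous (deriv χ) := hχ.continuous_deriv (by simp)
  have hmem : ∀ j, MemLp (splitGrad he hι χ f q j) 2 volume := fun j =>
    (memLp_finsetSum Finset.univ fun i _ =>
      (memLp_splitMul he hι hχ.continuous hχs (hq i)).const_mul _).add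
      ((memLp_splitMul he hι hχ' hχs.deriv hf).const_mul _)
  refine ⟨fun j => (hmem j).restrict B, fun j φ hφ hs hsub => ?_⟩
  have hz : ∀ x, x ∉ B → φ x = 0 ∧ pd j φ x = 0 := fun x hx => by
    have h1 := notMem_tsupport_iff_eventuallyEq.1 fun h => hx (hsub h)
    exact ⟨h1.eq_of_nhds, pd_eq_zero_of_eventually h1 j⟩
  rw [setIntegral_eq_integral_of_forall_compl_eq_zero fun x hx => by simp [(hz x hx).2],
    setIntegral_eq_integral_of_forall_compl_eq_zero fun x hx => by simp [(hz x hx).1]]
  obtain ⟨κ, hκ, hint⟩ := exists_integral_split he hι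
  refine mul_left_cancel₀ hκ.ne' ?_
  rw [mul_neg, ← hint, ← hint]
  set π := (volume : Measure (Euc d)).prod (volume : Measure ℝ) with hπ
  set Ψ := splitEquiv he hι
  set Φ : Euc d × ℝ → ℝ := fun p => φ (Ψ p) with hΦ
  have hΦd : ContDiff ℝ ∞ Φ := hφ.comp Ψ.contDiff
  have hΦs : HasCompactSupport Φ := hs.comp_homeomorph Ψ.toHomeomorph
  obtain ⟨hb, ha⟩ := splitEquiv_symm_single he hι j
  set w : Euc d × ℝ := Ψ.symm (EuclideanSpace.single j 1) with hw'
  set D : Fin d → Euc d × ℝ → ℝ := fun i p => fderiv ℝ Φ p (EuclideanSpace.single i 1, 0) with hD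
  set Dt : Euc d × ℝ → ℝ := fun p => fderiv ℝ Φ p (0, 1) with hDt
  have hDc : ∀ v, Continuous fun p => fderiv ℝ Φ p v := fun v =>
    (hΦd.continuous_fderiv (by simp)).clm_apply continuous_const
  have hsplit : ∀ p, pd j φ (Ψ p) = (∑ i, w.1 i * D i p) + w.2 * Dt p := by
    intro p
    have h1 : pd j φ (Ψ p) = fderiv ℝ Φ p w := by
      have h2 := ((hφ.differentiable (by simp) (Ψ p)).hasFDerivAt.comp p Ψ.hasFDerivAt).fderiv
      rw [show Φ = φ ∘ Ψ from rfl, h2]
      simp [pd, hw']
    have h3 : w = (∑ i, w.1 i • ((EuclideanSpace.single i 1, 0) : Euc d × ℝ))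
        + w.2 • ((0, 1) : Euc d × ℝ) := by
      refine Prod.ext ?_ ?_
      · simp only [Prod.fst_add, Prod.fst_sum, Prod.smul_fst, smul_zero, add_zero]
        ext k
        simp [Pi.single_apply]
      · simp [Prod.snd_sum]
    rw [h1]
    conv_lhs => rw [h3]
    rw [map_add, map_sum, map_smul]
    simp only [map_smul, smul_eq_mul, hD, hDt]
  obtain ⟨Mχ, hMχ⟩ := hχ.continuous.bounded_above_of_compact_support hχs
  obtain ⟨Mχ', hMχ'⟩ := hχ'.bounded_above_of_compact_support hχs.deriv
  have hint2 : ∀ {F : Euc d → ℝ} {ψ : ℝ → ℝ} {G : Euc d × ℝ → ℝ}, Integrable F → Continuous ψ →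
      HasCompactSupport ψ → Continuous G → HasCompactSupport G →
      Integrable (fun p => F p.1 * ψ p.2 * G p) π := by
    intro F ψ G hF hψ hψs hG hGs
    obtain ⟨M, hM⟩ := hG.bounded_above_of_compact_support hGs
    exact (hF.mul_prod (hψ.integrable_of_hasCompactSupport hψs)).mul_bdd (c := M)
      hG.aestronglyMeasurable (Eventually.of_forall hM)
  have hDs : ∀ v, HasCompactSupport fun p => fderiv ℝ Φ p v := fun v => hΦs.fderiv_apply ℝ v
  have A : ∀ i, ∫ p, f p.1 * χ p.2 * D i p ∂π = -∫ p, q i p.1 * χ p.2 * Φ p ∂π := by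
    intro i
    rw [← integral_neg, integral_prod_symm _ (hint2 hf1 hχ.continuous hχs (hDc _) (hDs _)),
      integral_prod_symm _ ((hint2 (hq1 i) hχ.continuous hχs hΦd.continuous hΦs).fun_neg)]
    refine integral_congr_ae (Eventually.of_forall fun t => ?_)
    have hsl : ContDiff ℝ ∞ fun y : Euc d => Φ (y, t) :=
      hΦd.comp (contDiff_id.prodMk contDiff_const)
    have hsls : HasCompactSupport fun y : Euc d => Φ (y, t) :=
      HasCompactSupport.intro (hΦs.isCompact.image continuous_fst) fun y hy =>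
        image_eq_zero_of_notMem_tsupport fun h => hy ⟨_, h, rfl⟩
    have hd : ∀ y, fderiv ℝ Φ (y, t) (EuclideanSpace.single i 1, 0)
        = pd i (fun y => Φ (y, t)) y := fun y => by
      have h := ((hΦd.differentiable (by simp) (y, t)).hasFDerivAt.comp y
        (f := fun z : Euc d => (z, t))
        (by simpa using (hasFDerivAt_id (𝕜 := ℝ) y).prodMk (hasFDerivAt_const t y))).fderiv
      rw [pd, show (fun y : Euc d => Φ (y, t)) = Φ ∘ fun y => (y, t) from rfl, h]
      simp
    simp only [hd, mul_comm (f _) (χ t), mul_comm (q i _) (χ t), mul_assoc, integral_const_mul,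
      integral_neg, hw i _ hsl hsls]
    ring
  have Bt : ∫ p, f p.1 * χ p.2 * Dt p ∂π = -∫ p, f p.1 * deriv χ p.2 * Φ p ∂π := by
    rw [← integral_neg, integral_prod _ (hint2 hf1 hχ.continuous hχs (hDc _) (hDs _)),
      integral_prod _ ((hint2 hf1 hχ' hχs.deriv hΦd.continuous hΦs).fun_neg)]
    refine integral_congr_ae (Eventually.of_forall fun y => ?_)
    have hd : ∀ t, HasDerivAt (fun t => Φ (y, t)) (Dt (y, t)) t := fun t => by
      have h := (hΦd.differentiable (by simp) (y, t)).hasFDerivAt.comp_hasDerivAt t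
        ((hasDerivAt_const t y).prodMk (hasDerivAt_id t))
      simpa [Function.comp_def, hDt] using h
    have hcΦ : Continuous fun t : ℝ => Φ (y, t) := hΦd.continuous.comp (continuous_const.prodMk continuous_id)
    have hcD : Continuous fun t : ℝ => Dt (y, t) := (hDc _).comp (continuous_const.prodMk continuous_id)
    have h := integral_mul_deriv_eq_deriv_mul_of_integrable (u := χ) (v := fun t => Φ (y, t))
      (u' := deriv χ) (v' := fun t => Dt (y, t))
      (fun t _ => (hχ.differentiable (by simp) t).hasDerivAt) (fun t _ => hd t)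
      ((hχ.continuous.mul hcD).integrable_of_hasCompactSupport hχs.mul_right)
      ((hχ'.mul hcΦ).integrable_of_hasCompactSupport hχs.deriv.mul_right)
      ((hχ.continuous.mul hcΦ).integrable_of_hasCompactSupport hχs.mul_right)
    simp only [hDt] at h
    simp only [mul_assoc, integral_const_mul, integral_neg, h]
    ring
  have e1 : ∀ p : Euc d × ℝ, splitMul he hι χ f (Ψ p) * pd j φ (Ψ p)
      = (∑ i, w.1 i * (f p.1 * χ p.2 * D i p)) + w.2 * (f p.1 * χ p.2 * Dt p) := fun p => by
    rw [splitMul_apply, hsplit, mul_add, Finset.mul_sum]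
    congr 1
    · exact Finset.sum_congr rfl fun i _ => by ring
    · ring
  have e2 : ∀ p : Euc d × ℝ, splitGrad he hι χ f q j (Ψ p) * φ (Ψ p)
      = (∑ i, w.1 i * (q i p.1 * χ p.2 * Φ p)) + w.2 * (f p.1 * deriv χ p.2 * Φ p) := fun p => by
    simp only [splitGrad]
    rw [splitMul_apply, add_mul, Finset.sum_mul]
    congr 1
    · refine Finset.sum_congr rfl fun i _ => ?_
      rw [splitMul_apply, ← ha i]
      ring
    · rw [← hb]
      ring
  have i1 : ∀ i ∈ (Finset.univ : Finset (Fin d)),
      Integrable (fun p => w.1 i * (f p.1 * χ p.2 * D i p)) π := fun i _ =>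
    (hint2 hf1 hχ.continuous hχs (hDc _) (hDs _)).const_mul _
  have i2 : ∀ i ∈ (Finset.univ : Finset (Fin d)),
      Integrable (fun p => w.1 i * (q i p.1 * χ p.2 * Φ p)) π := fun i _ =>
    (hint2 (hq1 i) hχ.continuous hχs hΦd.continuous hΦs).const_mul _
  simp only [e1, e2]
  rw [integral_add (integrable_finsetSum _ i1)
      ((hint2 hf1 hχ.continuous hχs (hDc _) (hDs _)).const_mul _),
    integral_add (integrable_finsetSum _ i2)
      ((hint2 hf1 hχ' hχs.deriv hΦd.continuous hΦs).const_mul _),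
    integral_finsetSum _ i1, integral_finsetSum _ i2]
  simp only [hD] at A
  simp only [hDt] at Bt
  simp only [hD, integral_const_mul, A, Bt, mul_neg, Finset.sum_neg_distrib]
  ring

end Vale.Agent.P098
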