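import Vale.Agent.P098.Regularity.B3.Compact

/-!
P098, block B3: the first outer and inner variations of a regular minimizer.
-/

open MeasureTheory Filter Matrix
open scoped Topology ContDiff NNReal

namespace Vale.Agent.P098

variable {d : ℕ} {L : ℝ≥0} {c : ℝ} {u : Euc d → ℝ}

lemma IsRegMin.isOpen_pos_weiss (hu : IsRegMin L c u) : IsOpen (posSet u) :=
  isOpen_lt continuous_const hu.lip.continuous

lemma IsRegMin.contDiffAt_one_weiss (hu : IsRegMin L c u) {x : Euc d} (hx : x ∈ posSet u) :
    ContDiffAt ℝ 1 u x :=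
  (hu.smooth.contDiffAt (hu.isOpen_pos_weiss.mem_nhds hx)).of_le (WithTop.coe_le_coe.2 le_top)

lemma IsRegMin.pd_eq_zero (hu : IsRegMin L c u) {x : Euc d} (hx : x ∉ posSet u) (i : Fin d) :
    pd i u x = 0 :=
  pd_eq_zero_of_eq_zero hu.nonneg (le_antisymm (not_lt.1 hx) (hu.nonneg x)) i

lemma IsRegMin.posGrad_eq (hu : IsRegMin L c u) : posGrad u = fun i => pd i u := by
  funext i x
  by_cases hx : x ∈ posSet u
  · rw [posGrad, Set.indicator_of_mem hx]
  · rw [posGrad, Set.indicator_of_notMem hx, hu.pd_eq_zero hx i]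

lemma eq_zero_of_linear_quadratic {a b δ : ℝ} (hδ : 0 < δ)
    (h : ∀ t : ℝ, |t| ≤ δ → 0 ≤ t * a + t ^ 2 * b) : a = 0 := by
  by_contra ha
  set s : ℝ := min δ (|a| / (2 * (|b| + 1))) with hs
  have hb1 : 0 < 2 * (|b| + 1) := by positivity
  have hs0 : 0 < s := lt_min hδ (div_pos (abs_pos.2 ha) hb1)
  have h1 : s * (2 * (|b| + 1)) ≤ |a| := (le_div_iff₀ hb1).1 (min_le_right _ _)
  have hp := h s (by rw [abs_of_pos hs0]; exact min_le_left _ _)
  have hm := h (-s) (by rw [abs_neg, abs_of_pos hs0]; exact min_le_left _ _)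
  have h2 : b * s < |a| := by nlinarith [mul_le_mul_of_nonneg_right (le_abs_self b) hs0.le]
  rcases abs_cases a with ⟨e, -⟩ | ⟨e, -⟩ <;> rw [e] at h2 <;> nlinarith

/-- A regular minimizer is minimal among continuous competitors. -/
theorem IsRegMin.isMinimizer (hu : IsRegMin L c u) : IsMinimizer u := by
  intro x R f hfc hfn hf hK
  rcases eq_top_or_lt_top (energy f (Metric.ball x R)) with ht | ht
  · rw [ht]
    exact le_top
  obtain ⟨K, hKc, hKB, hKeq⟩ := hK
  have h := (hu.minim.2 x R).2 f (fun i => pd i u) (posGrad f)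
    (hasWeakGrad_pd hu.lip Metric.isBounded_ball) (memLp_ball hfc x R)
    (hasWeakGrad_posGrad hfc hfn hf Metric.isOpen_ball Metric.isBounded_ball ht)
    (Eventually.of_forall hfn) ⟨K, hKc, hKB, Eventually.of_forall hKeq⟩
  rwa [← hu.posGrad_eq, sobolevEnergy_posGrad hu.lip.continuous measurableSet_ball,
    sobolevEnergy_posGrad hfc measurableSet_ball] at h

lemma IsRegMin.norm_gradVec_le (hu : IsRegMin L c u) (x : Euc d) : ‖gradVec u x‖ ≤ L :=
  (pi_norm_le_iff_of_nonneg (x := gradVec u x) (NNReal.coe_nonneg L)).2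
    fun i => abs_pd_le hu.lip i x

lemma measurable_gradVec (u : Euc d → ℝ) : Measurable (gradVec u) :=
  measurable_pi_iff.2 fun i => measurable_pd u i

/-- Continuous expressions in the gradient and the point are integrable on bounded sets. -/
lemma IsRegMin.integrableOn_comp_grad (hu : IsRegMin L c u) {Φ : (Fin d → ℝ) × Euc d → ℝ}
    (hΦ : Continuous Φ) {s : Set (Euc d)} (hb : Bornology.IsBounded s) :
    IntegrableOn (fun x => Φ (gradVec u x, x)) s := by
  refine IntegrableOn.mono_set (t := closure s) ?_ subset_closure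
  have := isFiniteMeasure_restrict hb.closure
  obtain ⟨N, hN⟩ := ((isCompact_closedBall (0 : Fin d → ℝ) L).prod
    hb.isCompact_closure).exists_bound_of_continuousOn hΦ.continuousOn
  refine Integrable.of_bound
    (hΦ.comp_aestronglyMeasurable
      ((measurable_gradVec u).aestronglyMeasurable.prodMk measurable_id.aestronglyMeasurable))
    N ((ae_restrict_iff' isClosed_closure.measurableSet).2 (Eventually.of_forall fun x hx => ?_))
  exact hN (gradVec u x, x) ⟨by simpa using hu.norm_gradVec_le x, hx⟩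

/-- The first outer variation vanishes. -/
theorem IsRegMin.outer_identity (hu : IsRegMin L c u) {η : Euc d → ℝ} (hη : ContDiff ℝ ∞ η)
    (hs : HasCompactSupport η) :
    ∫ x, ∑ i, pd i u x * (η x * pd i u x + u x * pd i η x) = 0 := by
  obtain ⟨D, hD⟩ := lipschitzWith_of_test hη hs
  obtain ⟨E, hE⟩ := exists_lipschitzWith_mul hD hs hu.lip
  obtain ⟨R, hR⟩ := hs.isCompact.isBounded.subset_ball (0 : Euc d)
  obtain ⟨M, hM⟩ := hη.continuous.bounded_above_of_compact_support hs
  set B := Metric.ball (0 : Euc d) R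
  set G : Fin d → Euc d → ℝ := fun i x => η x * pd i u x + u x * pd i η x with hG
  have hGmem : ∀ i, MemLp (G i) 2 (volume.restrict B) := fun i => by
    refine (memLp_pd hE Metric.isBounded_ball i).ae_eq ?_
    filter_upwards [ae_restrict_of_ae hu.lip.ae_differentiableAt] with x hx
    rw [pd_mul i (hη.differentiable (by simp) x) hx, hG]
    ring
  have hprod : ∀ {f g : Fin d → Euc d → ℝ}, (∀ i, MemLp (f i) 2 (volume.restrict B)) →
      (∀ i, MemLp (g i) 2 (volume.restrict B)) →
      IntegrableOn (fun x => ∑ i, f i x * g i x) B :=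
    fun hf hg => integrable_finsetSum _ fun i _ => (hf i).integrable_mul (hg i)
  set a := ∫ x in B, ∑ i, pd i u x * G i x with ha
  set b := ∫ x in B, ∑ i, G i x ^ 2 with hb
  have hkey : ∀ t : ℝ, |t| * M < 1 → 0 ≤ 2 * t * a + t ^ 2 * b := by
    intro t ht
    have hpos : ∀ x, 0 < 1 + t * η x := fun x => by
      have h1 : |t * η x| ≤ |t| * M := by
        rw [abs_mul]; exact mul_le_mul_of_nonneg_left (hM x) (abs_nonneg _)
      linarith [neg_abs_le (t * η x)]
    have hkl : LipschitzWith (‖t‖₊ * E) fun x => t * (η x * u x) :=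
      (lipschitzWith_smul t).comp hE
    have hgrad : HasWeakGrad B (fun x => t * (η x * u x)) fun i x => t * G i x := by
      have h := hasWeakGrad_pd hkl (Metric.isBounded_ball (x := (0 : Euc d)) (r := R))
      refine ⟨fun i => (hGmem i).const_mul t, fun i φ h1 h2 h3 => ?_⟩
      rw [h.2 i φ h1 h2 h3, neg_inj]
      refine integral_congr_ae ?_
      filter_upwards [ae_restrict_of_ae hu.lip.ae_differentiableAt] with x hx
      have hd := (hη.differentiable (by simp) x).fun_mul hx
      rw [pd, fderiv_const_mul hd]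
      simp only [_root_.smul_apply, smul_eq_mul]
      rw [show fderiv ℝ (fun y => η y * u y) x (EuclideanSpace.single i 1)
        = pd i (fun y => η y * u y) x from rfl, pd_mul i (hη.differentiable (by simp) x) hx]
      simp only [hG]
      ring
    have h := hu.minim.energyR_le hu.lip (c := 0) (R := R)
      ((memLp_lipschitz hu.lip 0 R).add (memLp_lipschitz hkl 0 R))
      ((hasWeakGrad_pd hu.lip Metric.isBounded_ball).add hgrad Metric.isBounded_ball
        (memLp_lipschitz hu.lip 0 R) (memLp_lipschitz hkl 0 R))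
      (Eventually.of_forall fun x => by
        show 0 ≤ u x + t * (η x * u x)
        rw [show u x + t * (η x * u x) = (1 + t * η x) * u x by ring]
        exact mul_nonneg (hpos x).le (hu.nonneg x))
      ⟨tsupport η, hs.isCompact, hR, Eventually.of_forall fun x hx => by
        simp [image_eq_zero_of_notMem_tsupport hx]⟩
    have hset : posSet (u + fun x => t * (η x * u x)) = posSet u := by
      ext x
      show 0 < u x + t * (η x * u x) ↔ 0 < u x
      rw [show u x + t * (η x * u x) = (1 + t * η x) * u x by ring]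
      exact mul_pos_iff_of_pos_left (hpos x)
    simp only [energyR] at h
    change _ ≤ (∫ x in B, ∑ i, (pd i u x + t * G i x) ^ 2)
      + (volume.restrict B).real (posSet (u + fun x => t * (η x * u x))) at h
    have e : ∫ x in B, ∑ i, (pd i u x + t * G i x) ^ 2
        = (∫ x in B, ∑ i, pd i u x ^ 2) + (2 * t * a + t ^ 2 * b) := by
      have i1 := integrableOn_sum_sq fun i => memLp_pd hu.lip
        (Metric.isBounded_ball (x := (0 : Euc d)) (r := R)) i
      have i2 : IntegrableOn (fun x => ∑ i, pd i u x * G i x) B :=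
        hprod (fun i => memLp_pd hu.lip Metric.isBounded_ball i) hGmem
      have i3 := integrableOn_sum_sq hGmem
      have e1 : ∀ x, ∑ i, (pd i u x + t * G i x) ^ 2 = (∑ i, pd i u x ^ 2)
          + (2 * t * (∑ i, pd i u x * G i x) + t ^ 2 * ∑ i, G i x ^ 2) := fun x => by
        simp only [Finset.mul_sum, ← Finset.sum_add_distrib]
        exact Finset.sum_congr rfl fun i _ => by ring
      simp only [e1]
      have i4 : Integrable (fun x => 2 * t * (∑ i, pd i u x * G i x) + t ^ 2 * ∑ i, G i x ^ 2)
          (volume.restrict B) := Integrable.add (i2.const_mul _) (i3.const_mul _)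
      rw [integral_add i1 i4, integral_add (i2.const_mul _) (i3.const_mul _), integral_const_mul,
        integral_const_mul]
    rw [e, hset] at h
    linarith
  have ha0 : 2 * a = 0 := eq_zero_of_linear_quadratic (δ := 1 / (|M| + 1)) (b := b)
    (by positivity) fun t ht => by
      have h1 : |t| * M < 1 := by
        rw [le_div_iff₀ (by positivity)] at ht
        rcases eq_or_ne t 0 with rfl | h0
        · simp
        nlinarith [abs_pos.2 h0, le_abs_self M,
          mul_le_mul_of_nonneg_left (le_abs_self M) (abs_nonneg t)]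
      linarith [hkey t h1]
  rw [← setIntegral_eq_integral_of_forall_compl_eq_zero (s := B) fun x hx => ?_]
  · simpa using ha0
  · refine Finset.sum_eq_zero fun i _ => ?_
    have hx' := notMem_tsupport_iff_eventuallyEq.1 fun h => hx (hR h)
    simp [hx'.eq_of_nhds, pd_eq_zero_of_eventually hx' i]

/-- The linear term of the transformed density. -/
noncomputable def firstVar (g : Fin d → ℝ) (B : Matrix (Fin d) (Fin d) ℝ) : ℝ :=
  (g ⬝ᵥ g + 1) * trace B - 2 * (g ⬝ᵥ (g ᵥ* B))

/-- The quadratic remainder of the transformed density. -/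
noncomputable def firstRem (g : Fin d → ℝ) (B : Matrix (Fin d) (Fin d) ℝ) (t : ℝ) : ℝ :=
  (g ⬝ᵥ g + 1) * detRem t B + (trace B + t * detRem t B) * (-2 * (g ⬝ᵥ (g ᵥ* B))
    + t * normTail g B t) + normTail g B t

lemma dens_expansion_weiss (g : Fin d → ℝ) (B : Matrix (Fin d) (Fin d) ℝ) (t : ℝ)
    (h : det (1 + t • B) ≠ 0) :
    dens g B t = g ⬝ᵥ g + 1 + t * firstVar g B + t ^ 2 * firstRem g B t := by
  rw [dens, vecMul_inv_expansion g B t h, det_expansion]
  simp only [firstVar, firstRem, normTail, dotProduct_add, add_dotProduct, dotProduct_sub,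
    sub_dotProduct, dotProduct_smul, smul_dotProduct, smul_eq_mul, dotProduct_comm (g ᵥ* B) g,
    dotProduct_comm (invTail g B t) g, dotProduct_comm (invTail g B t) (g ᵥ* B)]
  ring

lemma continuousOn_firstRem :
    ContinuousOn (fun p : (Fin d → ℝ) × Matrix (Fin d) (Fin d) ℝ × ℝ => firstRem p.1 p.2.1 p.2.2)
      {p | det (1 + p.2.2 • p.2.1) ≠ 0} := by
  intro p hp
  refine ContinuousAt.continuousWithinAt ?_
  have hinv : ContinuousAt
      (fun q : (Fin d → ℝ) × Matrix (Fin d) (Fin d) ℝ × ℝ => (1 + q.2.2 • q.2.1)⁻¹) p := by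
    refine ContinuousAt.comp (g := Inv.inv) (continuousAt_matrix_inv _ ?_) (by fun_prop)
    rw [Ring.inverse_eq_inv']
    exact continuousAt_inv₀ hp
  have hI : ContinuousAt
      (fun q : (Fin d → ℝ) × Matrix (Fin d) (Fin d) ℝ × ℝ => invTail q.1 q.2.1 q.2.2) p :=
    (continuous_fst.matrix_vecMul continuous_snd).continuousAt.comp
      (f := fun q : (Fin d → ℝ) × Matrix (Fin d) (Fin d) ℝ × ℝ =>
        (q.1, q.2.1 * q.2.1 * (1 + q.2.2 • q.2.1)⁻¹))
      (continuousAt_fst.prodMk ((continuous_fst.matrix_mul continuous_snd).continuousAt.comp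
        (f := fun q : (Fin d → ℝ) × Matrix (Fin d) (Fin d) ℝ × ℝ =>
          (q.2.1 * q.2.1, (1 + q.2.2 • q.2.1)⁻¹))
        ((by fun_prop : ContinuousAt _ p).prodMk hinv)))
  have hR : ContinuousAt
      (fun q : (Fin d → ℝ) × Matrix (Fin d) (Fin d) ℝ × ℝ => detRem q.2.2 q.2.1) p :=
    continuous_detRem.continuousAt.comp (f := fun q : (Fin d → ℝ) × Matrix (Fin d) (Fin d) ℝ × ℝ =>
      (q.2.2, q.2.1)) (by fun_prop)
  have hd : ∀ {a b : (Fin d → ℝ) × Matrix (Fin d) (Fin d) ℝ × ℝ → Fin d → ℝ},
      ContinuousAt a p → ContinuousAt b p → ContinuousAt (fun q => a q ⬝ᵥ b q) p := fun ha hb =>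
    (continuous_fst.dotProduct continuous_snd).continuousAt.comp (ha.prodMk hb)
  have hgB : ContinuousAt
      (fun q : (Fin d → ℝ) × Matrix (Fin d) (Fin d) ℝ × ℝ => q.1 ᵥ* q.2.1) p := by fun_prop
  have ht : ContinuousAt (fun q : (Fin d → ℝ) × Matrix (Fin d) (Fin d) ℝ × ℝ => q.2.2) p := by
    fun_prop
  have hN : ContinuousAt
      (fun q : (Fin d → ℝ) × Matrix (Fin d) (Fin d) ℝ × ℝ => normTail q.1 q.2.1 q.2.2) p := by
    unfold normTail
    exact (((hd hgB hgB).add (continuousAt_const.mul (hd continuousAt_fst hI))).sub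
      ((continuousAt_const.mul ht).mul (hd hgB hI))).add ((ht.pow 2).mul (hd hI hI))
  have htr : ContinuousAt
      (fun q : (Fin d → ℝ) × Matrix (Fin d) (Fin d) ℝ × ℝ => trace q.2.1) p := by fun_prop
  unfold firstRem
  exact ((((hd continuousAt_fst continuousAt_fst).add continuousAt_const).mul hR).add
    ((htr.add (ht.mul hR)).mul ((continuousAt_const.mul (hd continuousAt_fst hgB)).add
      (ht.mul hN)))).add hN

/-- The first inner variation vanishes. -/
theorem IsRegMin.inner_identity (hu : IsRegMin L c u) {X : Fin d → Euc d → ℝ}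
    (hX : ∀ i, ContDiff ℝ 1 (X i)) (hs : ∀ i, HasCompactSupport (X i)) :
    ∫ x in posSet u, firstVar (gradVec u x) (jac X x) = 0 := by
  set S := ⋃ i, tsupport (X i) with hSdef
  have hS : IsCompact S := isCompact_iUnion fun i => (hs i).isCompact
  have hJ : Continuous (jac X) :=
    continuous_pi fun i => continuous_pi fun j => continuous_pd (hX i) j
  have hJs : HasCompactSupport (jac X) :=
    HasCompactSupport.of_support_subset_isCompact hS fun x hx => by_contra fun h => hx (jac_eq_zero h)
  obtain ⟨R, hR⟩ := hS.isBounded.subset_ball (0 : Euc d)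
  set B : Set (Euc d) := Metric.ball (0 : Euc d) R
  set Ω := B ∩ posSet u with hΩdef
  have hΩ : IsOpen Ω := Metric.isOpen_ball.inter hu.isOpen_pos_weiss
  have hvol : volume Ω < ⊤ := (Metric.isBounded_ball.subset Set.inter_subset_left).measure_lt_top
  have : IsFiniteMeasure (volume.restrict Ω) :=
    ⟨by rw [Measure.restrict_apply_univ]; exact hvol⟩
  have hdetc : Continuous fun p : ℝ × Euc d => det (1 + p.1 • jac X p.2) :=
    (continuous_const.add (continuous_fst.smul (hJ.comp continuous_snd))).matrix_det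
  have hdet : ∀ᶠ t : ℝ in 𝓝 0, ∀ x, 0 < det (1 + t • jac X x) := by
    filter_upwards [hS.eventually_forall_of_forall_eventually (x₀ := (0 : ℝ))
      (P := fun t x => 0 < det (1 + t • jac X x)) fun y _ =>
        (hdetc.tendsto (0, y)).eventually (lt_mem_nhds (by simp))] with t ht x
    by_cases hx : x ∈ S
    · exact ht x hx
    · simp [jac_eq_zero hx]
  obtain ⟨δ, hδ, hδg⟩ :=
    Metric.nhds_basis_closedBall.eventually_iff.1 (hdet.and (eventually_homeomorph hX hs))
  -- bound on the remainder
  set T : Set ((Fin d → ℝ) × Matrix (Fin d) (Fin d) ℝ × ℝ) :=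
    Metric.closedBall (0 : Fin d → ℝ) L ×ˢ (Set.range (jac X) ×ˢ Metric.closedBall (0 : ℝ) δ)
  have hT : IsCompact T :=
    (isCompact_closedBall _ _).prod ((hJs.isCompact_range hJ).prod (isCompact_closedBall _ _))
  have hTd : T ⊆ {p | det (1 + p.2.2 • p.2.1) ≠ 0} := by
    rintro ⟨g, B', t⟩ ⟨-, ⟨x, rfl⟩, ht⟩
    exact ((hδg ht).1 x).ne'
  obtain ⟨M, hM⟩ := hT.exists_bound_of_continuousOn (continuousOn_firstRem.mono hTd)
  have hgx : ∀ x, gradVec u x ∈ Metric.closedBall (0 : Fin d → ℝ) L := fun x => by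
    simpa using hu.norm_gradVec_le x
  set A := ∫ x in Ω, firstVar (gradVec u x) (jac X x) with hA
  have hb : Bornology.IsBounded Ω := Metric.isBounded_ball.subset Set.inter_subset_left
  have hi1 : IntegrableOn (fun x => firstVar (gradVec u x) (jac X x)) Ω :=
    hu.integrableOn_comp_grad (Φ := fun q => firstVar q.1 (jac X q.2))
      (by unfold firstVar; fun_prop) hb
  have hi0 : IntegrableOn (fun x => gradVec u x ⬝ᵥ gradVec u x + 1) Ω :=
    hu.integrableOn_comp_grad (Φ := fun q => q.1 ⬝ᵥ q.1 + 1) (by fun_prop) hb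
  have hkey : ∀ t ∈ Metric.closedBall (0 : ℝ) δ,
      0 ≤ t * A + t ^ 2 * (M * volume.real Ω) := by
    intro t ht
    obtain ⟨hd, e, he⟩ := hδg ht
    have hfix : ∀ x, x ∉ S → vecField X x = 0 := fun x hx => PiLp.ext fun i =>
      image_eq_zero_of_notMem_tsupport (f := X i) fun h => hx (Set.mem_iUnion.2 ⟨i, h⟩)
    have hm := hu.isMinimizer 0 R (fun y => u (e.symm y))
      (hu.lip.continuous.comp e.symm.continuous) (fun y => hu.nonneg _)
      (contDiffOn_deformed he hX hd fun x hx => hu.contDiffAt_one_weiss hx)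
      ⟨S, hS, hR, fun x hx => congrArg u (fix_of_zero he (hfix x hx)).2⟩
    rw [energy_deformed (v := u) he hX hd hu.lip.continuous (fun x hx => hu.contDiffAt_one_weiss hx)
      (fun _ _ => rfl) Metric.isOpen_ball (fun x hx => hfix x fun h => hx (hR h))] at hm
    have h0 : energy u B = ∫⁻ x in Ω, ENNReal.ofReal (gradVec u x ⬝ᵥ gradVec u x + 1) := by
      refine setLIntegral_congr_fun hΩ.measurableSet fun x _ => ?_
      simp [gradVec, dotProduct, norm_fderiv_sq, gradSq]
    have hr : IntegrableOn (fun x => firstRem (gradVec u x) (jac X x) t) Ω :=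
      hu.integrableOn_comp_grad (Φ := fun q => firstRem q.1 (jac X q.2) t)
        (continuousOn_firstRem.comp_continuous
          (continuous_fst.prodMk ((hJ.comp continuous_snd).prodMk continuous_const))
          fun q => (hd q.2).ne') hb
    have hdi : IntegrableOn (fun x => dens (gradVec u x) (jac X x) t) Ω :=
      IntegrableOn.congr_fun ((hi0.add (hi1.const_mul t)).add (hr.const_mul (t ^ 2)))
        (fun x _ => (dens_expansion_weiss _ _ t (hd x).ne').symm) hΩ.measurableSet
    rw [h0, ← ofReal_integral_eq_lintegral_ofReal hi0 (Eventually.of_forall fun x =>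
        add_nonneg (Finset.sum_nonneg fun _ _ => mul_self_nonneg _) zero_le_one),
      ← ofReal_integral_eq_lintegral_ofReal hdi
        (Eventually.of_forall fun x => dens_nonneg _ (hd x))] at hm
    have h1 := (ENNReal.ofReal_le_ofReal_iff (setIntegral_nonneg hΩ.measurableSet
      fun x _ => dens_nonneg _ (hd x))).1 hm
    have i01 : Integrable (fun x => gradVec u x ⬝ᵥ gradVec u x + 1
        + t * firstVar (gradVec u x) (jac X x)) (volume.restrict Ω) :=
      Integrable.add hi0 (hi1.const_mul t)
    rw [setIntegral_congr_fun hΩ.measurableSet fun x _ => dens_expansion_weiss _ _ t (hd x).ne',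
      integral_add i01 (hr.const_mul _), integral_add hi0 (hi1.const_mul _), integral_const_mul,
      integral_const_mul] at h1
    have h2 : ∫ x in Ω, firstRem (gradVec u x) (jac X x) t ≤ M * volume.real Ω :=
      (le_abs_self _).trans (norm_setIntegral_le_of_norm_le_const hvol fun x _ =>
        hM (gradVec u x, jac X x, t) ⟨hgx x, ⟨x, rfl⟩, ht⟩)
    nlinarith [sq_nonneg t]
  have hA0 : A = 0 := eq_zero_of_linear_quadratic hδ fun t ht =>
    hkey t (by simpa [Metric.mem_closedBall] using ht)
  rw [← hA0]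
  refine setIntegral_eq_of_subset_of_forall_sdiff_eq_zero hu.isOpen_pos_weiss.measurableSet
    Set.inter_subset_right (fun x hx => ?_)
  simp [jac_eq_zero fun h => hx.2 ⟨hR h, hx.1⟩, firstVar]

end Vale.Agent.P098
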