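import Vale.Agent.P098.Regularity.B3.Variations

/-!
P098, block B3: a smoothed Weiss function and its derivative.
-/

open MeasureTheory Filter Matrix
open scoped Topology ContDiff NNReal

namespace Vale.Agent.P098

variable {d : ℕ} {L : ℝ≥0} {c : ℝ} {u : Euc d → ℝ}

/-- The cut-off as a function of `|x|² / r²`: smooth, decreasing and zero from `1` on. -/
noncomputable def wg (q : ℝ) : ℝ := expNegInvGlue (1 - q)

/-- Its derivative. -/
noncomputable def wg1 : ℝ → ℝ := deriv wg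

/-- Its second derivative. -/
noncomputable def wg2 : ℝ → ℝ := deriv wg1

lemma contDiff_wg : ContDiff ℝ ∞ wg :=
  expNegInvGlue.contDiff.comp (contDiff_const.sub contDiff_id)

lemma contDiff_wg1 : ContDiff ℝ ∞ wg1 := (contDiff_infty_iff_deriv.1 contDiff_wg).2

lemma contDiff_wg2 : ContDiff ℝ ∞ wg2 := (contDiff_infty_iff_deriv.1 contDiff_wg1).2

lemma wg_eq_zero {q : ℝ} (h : 1 ≤ q) : wg q = 0 :=
  expNegInvGlue.zero_of_nonpos (by linarith)

lemma wg_nonneg (q : ℝ) : 0 ≤ wg q := expNegInvGlue.nonneg _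

lemma wg_le_one (q : ℝ) : wg q ≤ 1 := by
  rcases le_or_gt 1 q with h | h
  · rw [wg_eq_zero h]; exact zero_le_one
  · rw [wg, expNegInvGlue, if_neg (by linarith)]
    exact Real.exp_le_one_iff.2 (neg_nonpos.2 (inv_nonneg.2 (by linarith)))

lemma wg1_eq_of_lt {q : ℝ} (h : q < 1) :
    wg1 q = -(Real.exp (-(1 - q)⁻¹) / (1 - q) ^ 2) := by
  have e : wg =ᶠ[𝓝 q] fun s => Real.exp (-(1 - s)⁻¹) := by
    filter_upwards [gt_mem_nhds h] with s hs
    rw [wg, expNegInvGlue, if_neg (by linarith)]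
  rw [wg1, e.deriv_eq]
  have h1 := (((hasDerivAt_id q).const_sub 1).fun_inv (sub_ne_zero.2 h.ne')).neg.exp
  refine h1.deriv.trans ?_
  simp
  field_simp

lemma wg1_eq_zero {q : ℝ} (h : 1 ≤ q) : wg1 q = 0 :=
  IsLocalMin.deriv_eq_zero (Eventually.of_forall fun s => (wg_eq_zero h).trans_le (wg_nonneg s))

lemma wg2_eq_zero {q : ℝ} (h : 1 ≤ q) : wg2 q = 0 := by
  have hs : Set.EqOn wg2 (fun _ => (0 : ℝ)) (Set.Ioi 1) := fun s hs => by
    have e : wg1 =ᶠ[𝓝 s] fun _ => (0 : ℝ) := by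
      filter_upwards [lt_mem_nhds (show 1 < s from hs)] with t ht
      exact wg1_eq_zero ht.le
    simp [wg2, e.deriv_eq]
  exact hs.closure contDiff_wg2.continuous continuous_const (by rwa [closure_Ioi])

lemma wg1_nonpos (q : ℝ) : wg1 q ≤ 0 := by
  rcases le_or_gt 1 q with h | h
  · rw [wg1_eq_zero h]
  · rw [wg1_eq_of_lt h]
    exact neg_nonpos.2 (by positivity)

lemma wg1_le_of_le {q : ℝ} (h0 : 0 ≤ q) (h : q ≤ 1 / 4) : wg1 q ≤ -Real.exp (-(4 / 3)) := by
  rw [wg1_eq_of_lt (by linarith)]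
  have h1 : Real.exp (-(4 / 3)) ≤ Real.exp (-(1 - q)⁻¹) := by
    refine Real.exp_le_exp.2 (neg_le_neg ?_)
    rw [inv_le_comm₀ (by linarith) (by norm_num)]
    linarith
  have h2 : Real.exp (-(1 - q)⁻¹) ≤ Real.exp (-(1 - q)⁻¹) / (1 - q) ^ 2 :=
    le_div_self (Real.exp_pos _).le (by nlinarith) (by nlinarith)
  linarith

/-- The density `|∇u|² + 1_{u > 0}`. -/
noncomputable def fdens (u : Euc d → ℝ) (x : Euc d) : ℝ :=
  ∑ i, pd i u x ^ 2 + (posSet u).indicator (fun _ => (1 : ℝ)) x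

/-- `x · ∇u`. -/
noncomputable def radialPart (u : Euc d → ℝ) (x : Euc d) : ℝ := ∑ i, x i * pd i u x

/-- `∫ h(|x|²/r²) G`. -/
noncomputable def radialInt (h : ℝ → ℝ) (G : Euc d → ℝ) (r : ℝ) : ℝ :=
  ∫ x, h (‖x‖ ^ 2 / r ^ 2) * G x

/-- The smoothed Weiss function. -/
noncomputable def weissPhi (u : Euc d → ℝ) (r : ℝ) : ℝ :=
  radialInt wg (fdens u) r / r ^ d + 2 * radialInt wg1 (fun x => u x ^ 2) r / r ^ (d + 2)

lemma one_le_q {x : Euc d} {r : ℝ} (hr : 0 < r) (hx : x ∉ Metric.closedBall (0 : Euc d) r) :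
    1 ≤ ‖x‖ ^ 2 / r ^ 2 := by
  simp only [Metric.mem_closedBall, dist_zero_right, not_le] at hx
  rw [one_le_div (pow_pos hr 2)]
  exact pow_le_pow_left₀ hr.le hx.le 2

lemma integrable_radial {h : ℝ → ℝ} (hh : Continuous h) (h0 : ∀ q, 1 ≤ q → h q = 0)
    {G : Euc d → ℝ} (hG : LocallyIntegrable G) {r : ℝ} (hr : 0 < r) :
    Integrable fun x => h (‖x‖ ^ 2 / r ^ 2) * G x := by
  refine IntegrableOn.integrable_of_forall_notMem_eq_zero
    (s := Metric.closedBall (0 : Euc d) r) ?_ fun x hx => by rw [h0 _ (one_le_q hr hx), zero_mul]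
  obtain ⟨M, hM⟩ := (isCompact_closedBall (0 : Euc d) r).exists_bound_of_continuousOn
    (f := fun x : Euc d => h (‖x‖ ^ 2 / r ^ 2)) (by fun_prop)
  exact (hG.integrableOn_isCompact (isCompact_closedBall _ _)).bdd_mul (c := M)
    (by fun_prop : Continuous fun x : Euc d => h (‖x‖ ^ 2 / r ^ 2)).aestronglyMeasurable
    ((ae_restrict_iff' measurableSet_closedBall).2 (Eventually.of_forall hM))

lemma hasDerivAt_radialInt {h : ℝ → ℝ} (hh : ContDiff ℝ 1 h) (h0 : ∀ q, 1 ≤ q → h q = 0)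
    (h1 : ∀ q, 1 ≤ q → deriv h q = 0) {G : Euc d → ℝ} (hG : LocallyIntegrable G) {r : ℝ}
    (hr : 0 < r) :
    HasDerivAt (radialInt h G)
      (-(2 / r) * ∫ x, (‖x‖ ^ 2 / r ^ 2) * deriv h (‖x‖ ^ 2 / r ^ 2) * G x) r := by
  have hd : Continuous (deriv h) := hh.continuous_deriv le_rfl
  obtain ⟨M, hM⟩ := (isCompact_Icc (a := (0 : ℝ)) (b := 1)).exists_bound_of_continuousOn
    (f := deriv h) hd.continuousOn
  set F' : ℝ → Euc d → ℝ := fun s x =>
    deriv h (‖x‖ ^ 2 / s ^ 2) * (-(2 / s) * (‖x‖ ^ 2 / s ^ 2)) * G x with hF'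
  have hpt : ∀ x : Euc d, ∀ s : ℝ, 0 < s →
      HasDerivAt (fun s => h (‖x‖ ^ 2 / s ^ 2) * G x) (F' s x) s := by
    intro x s hs
    have hq := (hasDerivAt_const s (‖x‖ ^ 2)).fun_div ((hasDerivAt_id s).pow 2)
      (pow_ne_zero 2 hs.ne')
    refine (((hh.differentiable one_ne_zero _).hasDerivAt.comp s hq).mul_const (G x)).congr_deriv ?_
    simp only [hF', id_eq, Pi.pow_apply]
    field_simp
    push_cast
    ring
  set S := Metric.closedBall (0 : Euc d) (2 * r)
  have hbound : ∀ x : Euc d, ∀ s ∈ Metric.ball r (r / 2),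
      ‖F' s x‖ ≤ S.indicator (fun x => M * (4 / r) * ‖G x‖) x := by
    intro x s hs
    rw [Metric.mem_ball, Real.dist_eq, abs_lt] at hs
    have hs0 : 0 < s := by linarith
    rcases le_or_gt 1 (‖x‖ ^ 2 / s ^ 2) with hq | hq
    · simp only [hF', h1 _ hq]
      simp only [zero_mul, norm_zero]
      refine Set.indicator_nonneg (fun y _ => ?_) x
      have : 0 ≤ M := (norm_nonneg _).trans (hM 0 ⟨le_rfl, zero_le_one⟩)
      positivity
    · have hxS : x ∈ S := by
        rw [Metric.mem_closedBall, dist_zero_right]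
        rw [div_lt_one (pow_pos hs0 2)] at hq
        have := (pow_lt_pow_iff_left₀ (norm_nonneg x) hs0.le two_ne_zero).1 hq
        linarith
      rw [Set.indicator_of_mem hxS]
      simp only [hF']
      rw [norm_mul, norm_mul, norm_mul, norm_neg]
      refine mul_le_mul_of_nonneg_right (mul_le_mul (hM _ ⟨by positivity, hq.le⟩) ?_
        (by positivity) ((norm_nonneg _).trans (hM _ ⟨by positivity, hq.le⟩))) (norm_nonneg _)
      rw [Real.norm_eq_abs, Real.norm_eq_abs, abs_of_pos (by positivity : 0 < 2 / s),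
        abs_of_nonneg (by positivity : 0 ≤ ‖x‖ ^ 2 / s ^ 2)]
      refine (mul_le_of_le_one_right (by positivity) hq.le).trans ?_
      rw [div_le_div_iff₀ hs0 hr]
      linarith
  have key := (hasDerivAt_integral_of_dominated_loc_of_deriv_le (μ := (volume : Measure (Euc d)))
    (F := fun s x => h (‖x‖ ^ 2 / s ^ 2) * G x) (F' := F')
    (bound := S.indicator fun x => M * (4 / r) * ‖G x‖) (x₀ := r) (s := Metric.ball r (r / 2))
    (Metric.ball_mem_nhds r (by positivity)) ?_ (integrable_radial hh.continuous h0 hG hr) ?_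
    (Eventually.of_forall fun x s hs => hbound x s hs) ?_ ?_).2
  · refine key.congr_deriv ?_
    rw [← integral_const_mul]
    refine integral_congr_ae (Eventually.of_forall fun x => ?_)
    simp only [hF']
    ring
  · filter_upwards [lt_mem_nhds hr] with s hs
    exact (integrable_radial hh.continuous h0 hG hs).aestronglyMeasurable
  · have hc : Continuous fun x : Euc d =>
        deriv h (‖x‖ ^ 2 / r ^ 2) * (-(2 / r) * (‖x‖ ^ 2 / r ^ 2)) :=
      (hd.comp (by fun_prop)).mul (by fun_prop)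
    exact hc.aestronglyMeasurable.mul hG.aestronglyMeasurable
  · exact (integrable_indicator_iff measurableSet_closedBall).2
      (((hG.integrableOn_isCompact (isCompact_closedBall _ _)).norm).const_mul _)
  · refine Eventually.of_forall fun x s hs => hpt x s ?_
    rw [Metric.mem_ball, Real.dist_eq, abs_lt] at hs
    linarith

lemma fdens_nonneg (u : Euc d → ℝ) (x : Euc d) : 0 ≤ fdens u x :=
  add_nonneg (Finset.sum_nonneg fun _ _ => sq_nonneg _)
    (Set.indicator_nonneg (fun _ _ => zero_le_one) x)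

lemma fdens_le (hu : IsRegMin L c u) (x : Euc d) : fdens u x ≤ (L : ℝ) ^ 2 + 1 :=
  add_le_add (sum_pd_sq_le hu.lip x) (Set.indicator_le' (fun _ _ => le_rfl)
    (fun _ _ => zero_le_one) x)

lemma locallyIntegrable_fdens (hu : IsRegMin L c u) : LocallyIntegrable (fdens u) := by
  refine (locallyIntegrable_iff).2 fun K hK => Integrable.add ?_ ?_
  · have := isFiniteMeasure_restrict hK.isBounded
    exact integrableOn_sum_sq fun i => memLp_pd hu.lip hK.isBounded i
  · exact (integrableOn_const hK.measure_lt_top.ne).indicator hu.isOpen_pos_weiss.measurableSet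

lemma differentiableAt_coord (i : Fin d) (x : Euc d) :
    DifferentiableAt ℝ (fun y : Euc d => y i) x :=
  (EuclideanSpace.proj (𝕜 := ℝ) i).differentiableAt

lemma pd_coord (i j : Fin d) (x : Euc d) :
    pd j (fun y : Euc d => y i) x = if i = j then (1 : ℝ) else 0 := by
  rw [pd, show (fun y : Euc d => y i) = ⇑(EuclideanSpace.proj (𝕜 := ℝ) i) from rfl,
    ContinuousLinearMap.fderiv]
  simp [PiLp.single_apply]

lemma sum_coord_mul_self (x : Euc d) : ∑ i, x i * x i = ‖x‖ ^ 2 := by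
  rw [EuclideanSpace.real_norm_sq_eq]
  exact Finset.sum_congr rfl fun i _ => (sq _).symm

/-- The variations combined, for radial cut-offs. -/
theorem radial_identity (hu : IsRegMin L c u) {r : ℝ} (hr : 0 < r) :
    (∫ x, ((d : ℝ) * wg (‖x‖ ^ 2 / r ^ 2)
        + 2 * (‖x‖ ^ 2 / r ^ 2) * wg1 (‖x‖ ^ 2 / r ^ 2)) * fdens u x)
      = -(4 / r ^ 2) * ∫ x, wg1 (‖x‖ ^ 2 / r ^ 2) * ((u x - radialPart u x) * radialPart u x) := by
  set η : Euc d → ℝ := fun x => wg (‖x‖ ^ 2 / r ^ 2) with hη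
  have hηd : ContDiff ℝ ∞ η := contDiff_wg.comp ((contDiff_norm_sq ℝ).div_const _)
  have hηs : HasCompactSupport η :=
    HasCompactSupport.intro (isCompact_closedBall (0 : Euc d) r) fun x hx =>
      wg_eq_zero (one_le_q hr hx)
  have hpη : ∀ i x, pd i η x = 2 * wg1 (‖x‖ ^ 2 / r ^ 2) / r ^ 2 * x i := by
    intro i x
    have h1 : HasFDerivAt (fun y : Euc d => ‖y‖ ^ 2 / r ^ 2)
        ((r ^ 2)⁻¹ • (2 • innerSL ℝ x)) x := by
      simpa [div_eq_mul_inv, smul_smul] using
        ((hasFDerivAt_id x).norm_sq).mul_const (r ^ 2)⁻¹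
    have h2 := ((contDiff_wg.differentiable (by simp) _).hasDerivAt.comp_hasFDerivAt x h1).fderiv
    rw [pd, show η = wg ∘ fun y : Euc d => ‖y‖ ^ 2 / r ^ 2 from rfl, h2]
    simp [wg1, PiLp.inner_apply, PiLp.single_apply]
    ring
  set X : Fin d → Euc d → ℝ := fun i x => η x * x i with hX
  have hXd : ∀ i, ContDiff ℝ 1 (X i) := fun i =>
    (hηd.of_le (WithTop.coe_le_coe.2 le_top)).mul (EuclideanSpace.proj (𝕜 := ℝ) i).contDiff
  have hXs : ∀ i, HasCompactSupport (X i) := fun i => hηs.mul_right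
  have hpX : ∀ i j x, pd j (X i) x = pd j η x * x i + η x * if i = j then (1 : ℝ) else 0 := by
    intro i j x
    show pd j (fun y => η y * y i) x = _
    rw [pd_mul j (hηd.differentiable (by simp) x) (differentiableAt_coord i x), pd_coord]
  have hI := hu.inner_identity hXd hXs
  have hO := hu.outer_identity hηd hηs
  rw [← integral_indicator hu.isOpen_pos_weiss.measurableSet] at hI
  set a : Euc d → ℝ := fun x => 2 * wg1 (‖x‖ ^ 2 / r ^ 2) / r ^ 2 with ha
  have e1 : ∀ x, (posSet u).indicator (fun x => firstVar (gradVec u x) (jac X x)) x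
      = (d * η x + a x * ‖x‖ ^ 2) * fdens u x
        - 2 * (η x * ∑ i, pd i u x ^ 2) - 2 * a x * radialPart u x ^ 2 := by
    intro x
    by_cases hx : x ∈ posSet u
    · rw [Set.indicator_of_mem hx]
      have t1 : trace (jac X x) = a x * ‖x‖ ^ 2 + d * η x := by
        rw [← sum_coord_mul_self x, Finset.mul_sum]
        simp [trace, Matrix.diag, jac, hpX, hpη, ha, Finset.sum_add_distrib, mul_assoc]
      have t2 : gradVec u x ⬝ᵥ (gradVec u x ᵥ* jac X x)
          = a x * radialPart u x ^ 2 + η x * ∑ i, pd i u x ^ 2 := by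
        simp only [dotProduct, vecMul, jac, Matrix.of_apply, gradVec, hpX, hpη, mul_add,
          Finset.sum_add_distrib, radialPart, sq, Finset.mul_sum, Finset.sum_mul]
        congr 1
        · refine Finset.sum_congr rfl fun j _ => Finset.sum_congr rfl fun i _ => ?_
          simp only [ha]
          ring
        · simp only [mul_ite, mul_one, mul_zero, Finset.sum_ite_eq',
            Finset.mem_univ, if_true]
          exact Finset.sum_congr rfl fun j _ => by ring
      have t3 : gradVec u x ⬝ᵥ gradVec u x + 1 = fdens u x := by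
        simp [fdens, hx, gradVec, dotProduct, sq]
      rw [firstVar, t1, t2, t3]
      ring
    · have h0 := hu.pd_eq_zero hx
      simp [hx, fdens, h0, radialPart]
  have e2 : ∀ x, ∑ i, pd i u x * (η x * pd i u x + u x * pd i η x)
      = η x * (∑ i, pd i u x ^ 2) + a x * (u x * radialPart u x) := fun x => by
    simp only [hpη, radialPart, ha, Finset.mul_sum, ← Finset.sum_add_distrib]
    exact Finset.sum_congr rfl fun i _ => by ring
  simp only [e1] at hI
  simp only [e2] at hO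
  have hb : Bornology.IsBounded (Metric.closedBall (0 : Euc d) r) := Metric.isBounded_closedBall
  have hcut : ∀ {Φ : (Fin d → ℝ) × Euc d → ℝ}, Continuous Φ →
      (∀ x, x ∉ Metric.closedBall (0 : Euc d) r → Φ (gradVec u x, x) = 0) →
      Integrable fun x => Φ (gradVec u x, x) := fun hΦ h0 =>
    (hu.integrableOn_comp_grad hΦ hb).integrable_of_forall_notMem_eq_zero h0
  have hac : Continuous a := by
    rw [ha]
    exact ((continuous_const.mul (contDiff_wg1.continuous.comp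
      ((continuous_norm.pow 2).div_const _))).div_const _)
  have ha0 : ∀ x, x ∉ Metric.closedBall (0 : Euc d) r → a x = 0 ∧ η x = 0 := fun x hx =>
    ⟨by simp [ha, wg1_eq_zero (one_le_q hr hx)], wg_eq_zero (one_le_q hr hx)⟩
  have iη : Integrable fun x => η x * ∑ i, pd i u x ^ 2 :=
    hcut (Φ := fun q => η q.2 * ∑ i, q.1 i ^ 2) (by fun_prop) fun x hx => by simp [ha0 x hx]
  have iP : Integrable fun x => a x * radialPart u x ^ 2 :=
    hcut (Φ := fun q => a q.2 * (∑ i, q.2 i * q.1 i) ^ 2) (by fun_prop)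
      fun x hx => by simp [ha0 x hx]
  have iuP : Integrable fun x => a x * (u x * radialPart u x) :=
    hcut (Φ := fun q => a q.2 * (u q.2 * ∑ i, q.2 i * q.1 i))
      (by have := hu.lip.continuous; fun_prop) fun x hx => by simp [ha0 x hx]
  have iF : Integrable fun x => (d * η x + a x * ‖x‖ ^ 2) * fdens u x := by
    refine IntegrableOn.integrable_of_forall_notMem_eq_zero
      (s := Metric.closedBall (0 : Euc d) r) ?_ fun x hx => by simp [ha0 x hx]
    obtain ⟨M, hM⟩ := (isCompact_closedBall (0 : Euc d) r).exists_bound_of_continuousOn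
      (f := fun x => (d : ℝ) * η x + a x * ‖x‖ ^ 2)
      (by have := hηd.continuous; fun_prop)
    exact ((locallyIntegrable_fdens hu).integrableOn_isCompact (isCompact_closedBall _ _)).bdd_mul
      (c := M) (by have := hηd.continuous; fun_prop : Continuous fun x =>
        (d : ℝ) * η x + a x * ‖x‖ ^ 2).aestronglyMeasurable
      ((ae_restrict_iff' measurableSet_closedBall).2 (Eventually.of_forall hM))
  have i12 : Integrable fun x => (d * η x + a x * ‖x‖ ^ 2) * fdens u x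
      - 2 * (η x * ∑ i, pd i u x ^ 2) := iF.sub (iη.const_mul 2)
  simp only [mul_assoc (2 : ℝ)] at hI
  rw [integral_sub i12 (iP.const_mul 2), integral_sub iF (iη.const_mul 2), integral_const_mul,
    integral_const_mul] at hI
  rw [integral_add iη iuP] at hO
  have eL : ∫ x, ((d : ℝ) * wg (‖x‖ ^ 2 / r ^ 2)
        + 2 * (‖x‖ ^ 2 / r ^ 2) * wg1 (‖x‖ ^ 2 / r ^ 2)) * fdens u x
      = ∫ x, (d * η x + a x * ‖x‖ ^ 2) * fdens u x :=
    integral_congr_ae (Eventually.of_forall fun x => by simp only [ha, hη]; ring)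
  have eR : -(4 / r ^ 2) * ∫ x, wg1 (‖x‖ ^ 2 / r ^ 2) * ((u x - radialPart u x) * radialPart u x)
      = -2 * ((∫ x, a x * (u x * radialPart u x)) - ∫ x, a x * radialPart u x ^ 2) := by
    rw [← integral_sub iuP iP, ← integral_const_mul, ← integral_const_mul]
    exact integral_congr_ae (Eventually.of_forall fun x => by simp only [ha]; ring)
  rw [eL, eR]
  linarith

/-- Integration by parts of `x · ∇(u²)` against the radial cut-off. -/
theorem radial_ibp (hu : IsRegMin L c u) {r : ℝ} (hr : 0 < r) :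
    (∫ x, ((d : ℝ) * wg1 (‖x‖ ^ 2 / r ^ 2)
        + 2 * (‖x‖ ^ 2 / r ^ 2) * wg2 (‖x‖ ^ 2 / r ^ 2)) * u x ^ 2)
      = -2 * ∫ x, wg1 (‖x‖ ^ 2 / r ^ 2) * (u x * radialPart u x) := by
  set ζ : Euc d → ℝ := fun x => wg1 (‖x‖ ^ 2 / r ^ 2) with hζ
  have hζd : ContDiff ℝ ∞ ζ := contDiff_wg1.comp ((contDiff_norm_sq ℝ).div_const _)
  have hζs : HasCompactSupport ζ :=
    HasCompactSupport.intro (isCompact_closedBall (0 : Euc d) r) fun x hx =>
      wg1_eq_zero (one_le_q hr hx)
  have hpζ : ∀ i x, pd i ζ x = 2 * wg2 (‖x‖ ^ 2 / r ^ 2) / r ^ 2 * x i := by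
    intro i x
    have h1 : HasFDerivAt (fun y : Euc d => ‖y‖ ^ 2 / r ^ 2)
        ((r ^ 2)⁻¹ • (2 • innerSL ℝ x)) x := by
      simpa [div_eq_mul_inv, smul_smul] using
        ((hasFDerivAt_id x).norm_sq).mul_const (r ^ 2)⁻¹
    have h2 := ((contDiff_wg1.differentiable (by simp) _).hasDerivAt.comp_hasFDerivAt x h1).fderiv
    rw [pd, show ζ = wg1 ∘ fun y : Euc d => ‖y‖ ^ 2 / r ^ 2 from rfl, h2]
    simp [wg2, PiLp.inner_apply, PiLp.single_apply]
    ring
  set b : Euc d → ℝ := fun x => 2 * wg2 (‖x‖ ^ 2 / r ^ 2) / r ^ 2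
  have key : ∀ i : Fin d, ∫ x, u x ^ 2 * (b x * x i * x i + ζ x)
      = -2 * ∫ x, ζ x * (u x * (x i * pd i u x)) := by
    intro i
    have hψd : ContDiff ℝ ∞ fun x : Euc d => ζ x * x i :=
      hζd.mul (EuclideanSpace.proj (𝕜 := ℝ) i).contDiff
    have hψs : HasCompactSupport fun x : Euc d => ζ x * x i := hζs.mul_right
    obtain ⟨D, hD⟩ := lipschitzWith_of_test hψd hψs
    obtain ⟨E, hE⟩ := exists_lipschitzWith_mul hD hψs hu.lip
    have h := integral_mul_pd hu.lip hE hψs.mul_right i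
    have hψi : ∀ x, pd i (fun y : Euc d => ζ y * y i) x = b x * x i * x i + ζ x := fun x => by
      rw [pd_mul i (hζd.differentiable (by simp) x) (differentiableAt_coord i x), hpζ, pd_coord,
        if_pos rfl]
      ring
    have e : (fun x => u x * pd i (fun y => ζ y * y i * u y) x) =ᵐ[volume] fun x =>
        u x ^ 2 * (b x * x i * x i + ζ x) + ζ x * (u x * (x i * pd i u x)) := by
      filter_upwards [hu.lip.ae_differentiableAt] with x hx
      rw [pd_mul i (hψd.differentiable (by simp) x) hx, hψi]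
      ring
    have hbnd : ∀ {Φ : (Fin d → ℝ) × Euc d → ℝ}, Continuous Φ →
        (∀ x, x ∉ Metric.closedBall (0 : Euc d) r → Φ (gradVec u x, x) = 0) →
        Integrable fun x => Φ (gradVec u x, x) := fun hΦ h0 =>
      (hu.integrableOn_comp_grad hΦ Metric.isBounded_closedBall).integrable_of_forall_notMem_eq_zero
        h0
    have hz : ∀ x, x ∉ Metric.closedBall (0 : Euc d) r → b x = 0 ∧ ζ x = 0 := fun x hx =>
      ⟨by simp [b, wg2_eq_zero (one_le_q hr hx)], wg1_eq_zero (one_le_q hr hx)⟩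
    have hbc : Continuous b :=
      ((continuous_const.mul (contDiff_wg2.continuous.comp
        ((continuous_norm.pow 2).div_const _))).div_const _)
    have i1 : Integrable fun x => u x ^ 2 * (b x * x i * x i + ζ x) :=
      hbnd (Φ := fun q => u q.2 ^ 2 * (b q.2 * q.2 i * q.2 i + ζ q.2))
        (by have := hu.lip.continuous; have := hζd.continuous; fun_prop)
        fun x hx => by simp [hz x hx]
    have i2 : Integrable fun x => ζ x * (u x * (x i * pd i u x)) :=
      hbnd (Φ := fun q => ζ q.2 * (u q.2 * (q.2 i * q.1 i)))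
        (by have := hu.lip.continuous; have := hζd.continuous; fun_prop)
        fun x hx => by simp [hz x hx]
    rw [integral_congr_ae e, integral_add i1 i2] at h
    have e' : ∫ x, pd i u x * (ζ x * x i * u x) = ∫ x, ζ x * (u x * (x i * pd i u x)) :=
      integral_congr_ae (Eventually.of_forall fun x => by ring)
    rw [e'] at h
    linarith
  have hbnd : ∀ {Φ : (Fin d → ℝ) × Euc d → ℝ}, Continuous Φ →
      (∀ x, x ∉ Metric.closedBall (0 : Euc d) r → Φ (gradVec u x, x) = 0) →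
      Integrable fun x => Φ (gradVec u x, x) := fun hΦ h0 =>
    (hu.integrableOn_comp_grad hΦ Metric.isBounded_closedBall).integrable_of_forall_notMem_eq_zero
      h0
  have hz : ∀ x, x ∉ Metric.closedBall (0 : Euc d) r → b x = 0 ∧ ζ x = 0 := fun x hx =>
    ⟨by simp [b, wg2_eq_zero (one_le_q hr hx)], wg1_eq_zero (one_le_q hr hx)⟩
  have hbc : Continuous b :=
    ((continuous_const.mul (contDiff_wg2.continuous.comp
      ((continuous_norm.pow 2).div_const _))).div_const _)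
  have s1 : ∀ x, ((d : ℝ) * wg1 (‖x‖ ^ 2 / r ^ 2)
      + 2 * (‖x‖ ^ 2 / r ^ 2) * wg2 (‖x‖ ^ 2 / r ^ 2)) * u x ^ 2
      = ∑ i, u x ^ 2 * (b x * x i * x i + ζ x) := fun x => by
    rw [← Finset.mul_sum, Finset.sum_add_distrib]
    simp only [mul_assoc, ← Finset.mul_sum, Finset.sum_const, Finset.card_univ, Fintype.card_fin,
      nsmul_eq_mul]
    rw [sum_coord_mul_self x]
    simp only [b, hζ]
    ring
  simp only [s1]
  rw [integral_finsetSum _ fun i _ => hbnd (Φ := fun q => u q.2 ^ 2 * (b q.2 * q.2 i * q.2 i + ζ q.2))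
      (by have := hu.lip.continuous; have := hζd.continuous; fun_prop)
      fun x hx => by simp [hz x hx]]
  simp only [key, ← Finset.mul_sum]
  congr 1
  have hi : ∀ i ∈ (Finset.univ : Finset (Fin d)),
      Integrable fun x => ζ x * (u x * (x i * pd i u x)) := fun i _ =>
    hbnd (Φ := fun q => ζ q.2 * (u q.2 * (q.2 i * q.1 i)))
      (by have := hu.lip.continuous; have := hζd.continuous; fun_prop) fun x hx => by simp [hz x hx]
  rw [← integral_finsetSum _ hi]
  refine integral_congr_ae (Eventually.of_forall fun x => ?_)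
  simp [radialPart, hζ, Finset.mul_sum]

/-- The derivative of the Weiss function. -/
theorem hasDerivAt_weissPhi (hu : IsRegMin L c u) {r : ℝ} (hr : 0 < r) :
    HasDerivAt (weissPhi u)
      (-(4 / r ^ (d + 3)) * ∫ x, wg1 (‖x‖ ^ 2 / r ^ 2) * (radialPart u x - u x) ^ 2) r := by
  have hG : LocallyIntegrable fun x => u x ^ 2 := (hu.lip.continuous.pow 2).locallyIntegrable
  have hF := locallyIntegrable_fdens hu
  have dA := hasDerivAt_radialInt (contDiff_wg.of_le (WithTop.coe_le_coe.2 le_top))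
    (fun q => wg_eq_zero) (fun q => wg1_eq_zero) hF hr
  have dB := hasDerivAt_radialInt (contDiff_wg1.of_le (WithTop.coe_le_coe.2 le_top))
    (fun q => wg1_eq_zero) (fun q => wg2_eq_zero) hG hr
  have h := (dA.fun_div (hasDerivAt_pow d r) (pow_ne_zero _ hr.ne')).fun_add
    ((dB.const_mul 2).fun_div (hasDerivAt_pow (d + 2) r) (pow_ne_zero _ hr.ne'))
  refine h.congr_deriv ?_
  have hc0 : Continuous fun x : Euc d => ‖x‖ ^ 2 / r ^ 2 := (continuous_norm.pow 2).div_const _
  have i0 : Integrable fun x => wg (‖x‖ ^ 2 / r ^ 2) * fdens u x :=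
    integrable_radial contDiff_wg.continuous (fun q => wg_eq_zero) hF hr
  have i1 : Integrable fun x => ‖x‖ ^ 2 / r ^ 2 * wg1 (‖x‖ ^ 2 / r ^ 2) * fdens u x :=
    integrable_radial (continuous_id.mul contDiff_wg1.continuous)
      (fun q hq => by simp [wg1_eq_zero hq]) hF hr
  have j0 : Integrable fun x => wg1 (‖x‖ ^ 2 / r ^ 2) * u x ^ 2 :=
    integrable_radial contDiff_wg1.continuous (fun q => wg1_eq_zero) hG hr
  have j1 : Integrable fun x => ‖x‖ ^ 2 / r ^ 2 * wg2 (‖x‖ ^ 2 / r ^ 2) * u x ^ 2 :=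
    integrable_radial (continuous_id.mul contDiff_wg2.continuous)
      (fun q hq => by simp [wg2_eq_zero hq]) hG hr
  have hbnd : ∀ {Φ : (Fin d → ℝ) × Euc d → ℝ}, Continuous Φ →
      Integrable fun x => wg1 (‖x‖ ^ 2 / r ^ 2) * Φ (gradVec u x, x) := fun {Φ} hΦ => by
    refine IntegrableOn.integrable_of_forall_notMem_eq_zero (s := Metric.closedBall (0 : Euc d) r)
      ?_ fun x hx => by simp [wg1_eq_zero (one_le_q hr hx)]
    exact hu.integrableOn_comp_grad (Φ := fun q => wg1 (‖q.2‖ ^ 2 / r ^ 2) * Φ q)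
      (((contDiff_wg1.continuous.comp hc0).comp continuous_snd).mul hΦ) Metric.isBounded_closedBall
  have kUP : Integrable fun x => wg1 (‖x‖ ^ 2 / r ^ 2) * (u x * radialPart u x) :=
    hbnd (Φ := fun q => u q.2 * ∑ i, q.2 i * q.1 i) (by have := hu.lip.continuous; fun_prop)
  have kPP : Integrable fun x => wg1 (‖x‖ ^ 2 / r ^ 2) * radialPart u x ^ 2 :=
    hbnd (Φ := fun q => (∑ i, q.2 i * q.1 i) ^ 2) (by fun_prop)
  have r1 := radial_identity hu hr
  have r2 := radial_ibp hu hr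
  have el : ∀ (f g : ℝ → ℝ) (G : Euc d → ℝ),
      Integrable (fun x => f (‖x‖ ^ 2 / r ^ 2) * G x) →
      Integrable (fun x => ‖x‖ ^ 2 / r ^ 2 * g (‖x‖ ^ 2 / r ^ 2) * G x) →
      ∫ x, ((d : ℝ) * f (‖x‖ ^ 2 / r ^ 2) + 2 * (‖x‖ ^ 2 / r ^ 2) * g (‖x‖ ^ 2 / r ^ 2)) * G x
        = d * (∫ x, f (‖x‖ ^ 2 / r ^ 2) * G x)
          + 2 * ∫ x, ‖x‖ ^ 2 / r ^ 2 * g (‖x‖ ^ 2 / r ^ 2) * G x := fun f g G hf hg => by
    rw [← integral_const_mul, ← integral_const_mul,
      ← integral_add (hf.const_mul _) (hg.const_mul _)]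
    exact integral_congr_ae (Eventually.of_forall fun x => by ring)
  rw [el wg wg1 _ i0 i1] at r1
  rw [el wg1 wg2 _ j0 j1] at r2
  have e1 : ∫ x, wg1 (‖x‖ ^ 2 / r ^ 2) * ((u x - radialPart u x) * radialPart u x)
      = (∫ x, wg1 (‖x‖ ^ 2 / r ^ 2) * (u x * radialPart u x))
        - ∫ x, wg1 (‖x‖ ^ 2 / r ^ 2) * radialPart u x ^ 2 := by
    rw [← integral_sub kUP kPP]
    exact integral_congr_ae (Eventually.of_forall fun x => by ring)
  have e2 : ∫ x, wg1 (‖x‖ ^ 2 / r ^ 2) * (radialPart u x - u x) ^ 2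
      = (∫ x, wg1 (‖x‖ ^ 2 / r ^ 2) * radialPart u x ^ 2)
        - 2 * (∫ x, wg1 (‖x‖ ^ 2 / r ^ 2) * (u x * radialPart u x))
        + ∫ x, wg1 (‖x‖ ^ 2 / r ^ 2) * u x ^ 2 := by
    have i3 : Integrable fun x => wg1 (‖x‖ ^ 2 / r ^ 2) * radialPart u x ^ 2
        - 2 * (wg1 (‖x‖ ^ 2 / r ^ 2) * (u x * radialPart u x)) := kPP.sub (kUP.const_mul 2)
    rw [← integral_const_mul, ← integral_sub kPP (kUP.const_mul 2), ← integral_add i3 j0]
    exact integral_congr_ae (Eventually.of_forall fun x => by ring)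
  rw [e1] at r1
  rw [e2]
  simp only [radialInt, show deriv wg = wg1 from rfl, show deriv wg1 = wg2 from rfl]
  set A := ∫ x, wg (‖x‖ ^ 2 / r ^ 2) * fdens u x
  set A1 := ∫ x, ‖x‖ ^ 2 / r ^ 2 * wg1 (‖x‖ ^ 2 / r ^ 2) * fdens u x
  set B := ∫ x, wg1 (‖x‖ ^ 2 / r ^ 2) * u x ^ 2
  set B1 := ∫ x, ‖x‖ ^ 2 / r ^ 2 * wg2 (‖x‖ ^ 2 / r ^ 2) * u x ^ 2
  set U := ∫ x, wg1 (‖x‖ ^ 2 / r ^ 2) * (u x * radialPart u x)
  set P := ∫ x, wg1 (‖x‖ ^ 2 / r ^ 2) * radialPart u x ^ 2
  have hrne := hr.ne'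
  have hA1 : A1 = (-(4 / r ^ 2) * (U - P) - d * A) / 2 := by linarith
  have hB1 : B1 = (-2 * U - d * B) / 2 := by linarith
  rw [hA1, hB1]
  rcases Nat.eq_zero_or_pos d with hd | hd
  · subst hd
    field_simp
    push_cast
    ring
  · obtain ⟨k, rfl⟩ := Nat.exists_eq_succ_of_ne_zero hd.ne'
    rw [Nat.succ_eq_add_one, show k + 1 + 2 - 1 = k + 2 from rfl]
    simp only [Nat.add_sub_cancel, pow_succ, Nat.cast_add, Nat.cast_one, Nat.cast_ofNat]
    field_simp
    ring

/-- Monotonicity. -/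
theorem monotoneOn_weissPhi (hu : IsRegMin L c u) : MonotoneOn (weissPhi u) (Set.Ioi 0) := by
  refine monotoneOn_of_hasDerivWithinAt_nonneg (convex_Ioi 0)
    (fun r hr => (hasDerivAt_weissPhi hu hr).continuousAt.continuousWithinAt)
    (fun r hr => (hasDerivAt_weissPhi hu (interior_subset hr)).hasDerivWithinAt) fun r hr => ?_
  have hr0 : (0 : ℝ) < r := interior_subset (s := Set.Ioi 0) hr
  have : ∫ x, wg1 (‖x‖ ^ 2 / r ^ 2) * (radialPart u x - u x) ^ 2 ≤ 0 :=
    integral_nonpos fun x => mul_nonpos_of_nonpos_of_nonneg (wg1_nonpos _) (sq_nonneg _)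
  exact mul_nonneg_of_nonpos_of_nonpos (neg_nonpos.2 (by positivity)) this

lemma abs_radialInt_le {h : ℝ → ℝ} (h0 : ∀ q, 1 ≤ q → h q = 0) {M N : ℝ}
    (hM : ∀ q ∈ Set.Icc (0 : ℝ) 1, |h q| ≤ M) {G : Euc d → ℝ} {r : ℝ} (hr : 0 < r)
    (hN : ∀ x ∈ Metric.closedBall (0 : Euc d) r, |G x| ≤ N) :
    |radialInt h G r| ≤ M * N * (r ^ d * volume.real (Metric.closedBall (0 : Euc d) 1)) := by
  have hMN : 0 ≤ M * N := mul_nonneg ((abs_nonneg _).trans (hM 0 ⟨le_rfl, zero_le_one⟩))
    ((abs_nonneg _).trans (hN 0 (Metric.mem_closedBall_self hr.le)))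
  have h1 : radialInt h G r
      = ∫ x in Metric.closedBall (0 : Euc d) r, h (‖x‖ ^ 2 / r ^ 2) * G x :=
    (setIntegral_eq_integral_of_forall_compl_eq_zero fun x hx => by
      rw [h0 _ (one_le_q hr hx), zero_mul]).symm
  rw [h1, ← Real.norm_eq_abs]
  refine (norm_setIntegral_le_of_norm_le_const (C := M * N)
    measure_closedBall_lt_top fun x hx => ?_).trans ?_
  · rw [norm_mul]
    refine mul_le_mul (hM _ ⟨by positivity, ?_⟩) (hN x hx) (norm_nonneg _)
      ((abs_nonneg _).trans (hM 0 ⟨le_rfl, zero_le_one⟩))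
    rw [div_le_one (pow_pos hr 2)]
    exact pow_le_pow_left₀ (norm_nonneg _) (by simpa using hx) 2
  · refine mul_le_mul_of_nonneg_left (le_of_eq ?_) hMN
    rw [Measure.addHaar_real_closedBall' _ _ hr.le, finrank_euclideanSpace_fin]

/-- The Weiss function is bounded. -/
theorem exists_abs_weissPhi_le (hu : IsRegMin L c u) (h0 : u 0 = 0) :
    ∃ C, ∀ r, 0 < r → |weissPhi u r| ≤ C := by
  obtain ⟨M, hM⟩ := (isCompact_Icc (a := (0 : ℝ)) (b := 1)).exists_bound_of_continuousOn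
    contDiff_wg1.continuous.continuousOn
  set V := volume.real (Metric.closedBall (0 : Euc d) 1)
  refine ⟨((L : ℝ) ^ 2 + 1) * V + 2 * (M * (L : ℝ) ^ 2 * V), fun r hr => ?_⟩
  have hA := abs_radialInt_le (d := d) (h := wg) (fun q => wg_eq_zero) (M := 1)
    (N := (L : ℝ) ^ 2 + 1) (fun q _ => abs_le.2 ⟨by linarith [wg_nonneg q], wg_le_one q⟩) hr
    (G := fdens u) fun x _ => by rw [abs_of_nonneg (fdens_nonneg u x)]; exact fdens_le hu x
  have hB := abs_radialInt_le (d := d) (h := wg1) (fun q => wg1_eq_zero) (M := M)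
    (N := (L : ℝ) ^ 2 * r ^ 2) hM hr (G := fun x => u x ^ 2) fun x hx => by
      rw [abs_pow, ← mul_pow]
      refine pow_le_pow_left₀ (abs_nonneg _) ?_ 2
      have h := hu.lip.dist_le_mul x 0
      rw [Real.dist_eq, h0, sub_zero, dist_zero_right] at h
      exact h.trans (mul_le_mul_of_nonneg_left (by simpa using hx) (NNReal.coe_nonneg L))
  rw [weissPhi]
  refine (abs_add_le _ _).trans (add_le_add ?_ ?_)
  · rw [abs_div, abs_of_pos (pow_pos hr d), div_le_iff₀ (pow_pos hr d)]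
    linarith
  · rw [abs_div, abs_of_pos (pow_pos hr (d + 2)), div_le_iff₀ (pow_pos hr (d + 2)), abs_mul,
      abs_two, pow_add]
    nlinarith [hB]

end Vale.Agent.P098
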